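import Vale.Agent.P209.GWords
import Vale.Agent.P209.Words

namespace Vale.Agent.P209.MM

open Vale.Agent.P209

/-! Q0. Ordered toric packings: definitions. The dimension is `n + 1`. -/

/-- Cells of sizes `a i` in `Ω`, which are ordered along the last coordinate by a key. -/
def OPackIn (n : ℕ) {ι : Type} (a : ι → ℝ) (Ω : Set (Fin (n + 1) → ℝ)) : Prop :=
  ∃ (σ : ι → Equiv.Perm (Fin (n + 1))) (b : ι → Fin (n + 1) → ℝ) (key : ι → ℕ),
    (∀ i, cell (σ i) (b i) (a i) ⊆ Ω) ∧
    ∀ i j, i ≠ j → key i ≤ key j → ∀ y ∈ cell (σ i) (b i) (a i), ∀ y' ∈ cell (σ j) (b j) (a j),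
      (∀ k : Fin (n + 1), (k : ℕ) < n → y k = y' k) → y (Fin.last n) < y' (Fin.last n)

/-- Points of the simplex of size `h + s` with exactly `d` coordinates below `h`. -/
def Reg (n d : ℕ) (h s : ℝ) : Set (Fin (n + 1) → ℝ) :=
  {y | y ∈ tri (n + 1) (h + s) ∧ (∀ i : Fin (n + 1), (i : ℕ) < d → y i < h) ∧
    ∀ i : Fin (n + 1), d ≤ (i : ℕ) → h < y i}

/-- Points of the simplex of size `h + s` with at most `m` coordinates below `h`. -/
def RegLe (n m : ℕ) (h s : ℝ) : Set (Fin (n + 1) → ℝ) :=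
  {y | y ∈ tri (n + 1) (h + s) ∧ ∀ i : Fin (n + 1), m ≤ (i : ℕ) → h < y i}

/-- The Meir-Moser type criterion in dimension `d`: a decreasing list packs the simplex of size
`h` if all its simplices but the first have volume less than the simplex of size `h - b 0`. -/
def MMd (d : ℕ) : Prop :=
  ∀ (k : ℕ) (b : ℕ → ℝ) (h : ℝ), Antitone b → (∀ i, 0 ≤ b i) → b 0 < h →
    ∑ i ∈ Finset.Ico 1 k, b i ^ d < (h - b 0) ^ d → TPack d (fun i : Fin k => b i) h

/-- The size used by the first ball and `m ^ n - j ^ n` further balls placed in layers. -/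
noncomputable def LL (n m j : ℕ) (r : ℕ → ℝ) : ℝ :=
  max (r 0) (j * r 1) + ∑ q ∈ Finset.Ico j m, r (q ^ n - j ^ n + 1)

end Vale.Agent.P209.MM
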