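import Vale.Agent.P209.MM.Q0

namespace Vale.Agent.P209.MM

open Vale.Agent.P209

/-! Q1. Basic properties of ordered packings. -/

theorem OPackIn.mono {n : ℕ} {ι : Type} {a a' : ι → ℝ} {Ω Ω' : Set (Fin (n + 1) → ℝ)}
    (h : OPackIn n a Ω) (ha : ∀ i, a' i ≤ a i) (hΩ : Ω ⊆ Ω') : OPackIn n a' Ω' := by
  obtain ⟨σ, b, key, h1, h2⟩ := h
  exact ⟨σ, b, key, fun i => (cell_mono _ _ (ha i)).trans ((h1 i).trans hΩ),
    fun i j hij hk y hy y' hy' => h2 i j hij hk y (cell_mono _ _ (ha i) hy) y'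
      (cell_mono _ _ (ha j) hy')⟩

theorem OPackIn.comp {n : ℕ} {ι κ : Type} {a : ι → ℝ} {Ω : Set (Fin (n + 1) → ℝ)}
    (h : OPackIn n a Ω) {f : κ → ι} (hf : Function.Injective f) :
    OPackIn n (fun k => a (f k)) Ω := by
  obtain ⟨σ, b, key, h1, h2⟩ := h
  exact ⟨fun k => σ (f k), fun k => b (f k), fun k => key (f k), fun k => h1 _,
    fun i j hij hk => h2 (f i) (f j) (hf.ne hij) hk⟩

theorem OPackIn.empty {n : ℕ} {ι : Type} [IsEmpty ι] {a : ι → ℝ} {Ω : Set (Fin (n + 1) → ℝ)} :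
    OPackIn n a Ω :=
  ⟨fun _ => 1, fun _ _ => 0, fun _ => 0, fun i => isEmptyElim i, fun i => isEmptyElim i⟩

theorem OPackIn.toTPackIn {n : ℕ} {ι : Type} {a : ι → ℝ} {Ω : Set (Fin (n + 1) → ℝ)}
    (h : OPackIn n a Ω) : TPackIn (n + 1) a Ω := by
  obtain ⟨σ, b, key, h1, h2⟩ := h
  refine ⟨σ, b, h1, fun i j hij => ?_⟩
  refine Set.disjoint_left.2 fun y hy hy' => ?_
  rcases le_total (key i) (key j) with h | h
  · exact lt_irrefl _ (h2 i j hij h y hy y hy' fun _ _ => rfl)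
  · exact lt_irrefl _ (h2 j i (Ne.symm hij) h y hy' y hy fun _ _ => rfl)

theorem OPackIn.toTPack {n : ℕ} {ι : Type} {a : ι → ℝ} {R : ℝ}
    (h : OPackIn n a (tri (n + 1) R)) : TPack (n + 1) a R :=
  h.toTPackIn

/-- scaling (compare `TPack.scale` in `Toric.lean`) -/
theorem OPackIn.scale {n : ℕ} {ι : Type} {a : ι → ℝ} {R c : ℝ} (hc : 0 < c)
    (h : OPackIn n a (tri (n + 1) R)) :
    OPackIn n (fun i => c * a i) (tri (n + 1) (c * R)) := by
  obtain ⟨σ, b, key, h1, h2⟩ := h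
  have hkey : ∀ i y, y ∈ cell (σ i) (fun l => c * b i l) (c * a i) ↔
      (fun l => c⁻¹ * y l) ∈ cell (σ i) (b i) (a i) := by
    intro i y
    unfold cell
    simp only [Set.mem_ofPred_eq]
    rw [← tri_scale hc (fun l => c⁻¹ * y (σ i l) - b i l)]
    have : (fun l => c * (c⁻¹ * y (σ i l) - b i l)) = fun l => y (σ i l) - c * b i l := by
      funext l; field_simp
    rw [this]
  refine ⟨σ, fun i l => c * b i l, key, ?_, ?_⟩
  · intro i y hy
    rw [hkey] at hy
    have := h1 i hy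
    rw [← tri_scale hc] at this
    have e : (fun l => c * (c⁻¹ * y l)) = y := by
      funext l; field_simp
    rwa [e] at this
  · intro i j hij hk y hy y' hy' hyy
    rw [hkey] at hy hy'
    have h3 := h2 i j hij hk _ hy _ hy' fun k hkn => by rw [hyy k hkn]
    exact lt_of_mul_lt_mul_left h3 (inv_pos.2 hc).le

/-- A packing of a lower and of an upper region. The keys of the upper cells are shifted above
those of the lower cells. -/
theorem OPackIn.union {n : ℕ} {ι κ : Type} [Finite ι] {a : ι → ℝ} {b : κ → ℝ}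
    {Ω₁ Ω₂ Ω : Set (Fin (n + 1) → ℝ)} (h1 : OPackIn n a Ω₁) (h2 : OPackIn n b Ω₂)
    (h1Ω : Ω₁ ⊆ Ω) (h2Ω : Ω₂ ⊆ Ω)
    (hsep : ∀ y ∈ Ω₁, ∀ y' ∈ Ω₂, (∀ k : Fin (n + 1), (k : ℕ) < n → y k = y' k) →
      y (Fin.last n) < y' (Fin.last n)) :
    OPackIn n (Sum.elim a b) Ω := by
  obtain ⟨σ₁, b₁, key₁, p1, p2⟩ := h1
  obtain ⟨σ₂, b₂, key₂, q1, q2⟩ := h2
  obtain ⟨K, hK⟩ := (Set.finite_range key₁).bddAbove
  have hK' : ∀ i, key₁ i ≤ K := fun i => hK ⟨i, rfl⟩
  refine ⟨Sum.elim σ₁ σ₂, Sum.elim b₁ b₂, Sum.elim key₁ (fun k => key₂ k + K + 1), ?_, ?_⟩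
  · rintro (i | i)
    · exact (p1 i).trans h1Ω
    · exact (q1 i).trans h2Ω
  · rintro (i | i) (j | j) hij hk y hy y' hy' hyy
    · exact p2 i j (fun h => hij (by rw [h])) hk y hy y' hy' hyy
    · exact hsep y (p1 i hy) y' (q1 j hy') hyy
    · exfalso
      have h3 := hK' j
      simp only [Sum.elim_inl, Sum.elim_inr] at hk
      omega
    · refine q2 i j (fun h => hij (by rw [h])) ?_ y hy y' hy' hyy
      simp only [Sum.elim_inr] at hk
      omega

/-- One cell in the corner region. -/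
theorem OPackIn.single {n : ℕ} {x h s : ℝ} (hh : 0 ≤ h) (hx : x ≤ s) :
    OPackIn n (fun _ : Fin 1 => x) (Reg n 0 h s) := by
  refine ⟨fun _ => 1, fun _ _ => h, fun _ => 0, ?_, ?_⟩
  · intro _ y hy
    have h1 : ∀ i, 0 < y i - h := hy.1
    have h2 : StrictMono fun i => y i - h := hy.2.1
    have h3 : ∀ i, y i - h < x := hy.2.2
    refine ⟨⟨fun i => ?_, fun i j hij => ?_, fun i => ?_⟩, fun i hi => ?_, fun i _ => ?_⟩
    · have := h1 i
      linarith
    · have : y i - h < y j - h := h2 hij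
      linarith
    · have := h3 i
      linarith
    · exact absurd hi (Nat.not_lt_zero _)
    · have := h1 i
      linarith
  · intro i j hij
    exact absurd (Subsingleton.elim i j) hij

/-- The size of a nonempty cell inside a simplex. -/
theorem OPackIn.le {n : ℕ} {ι : Type} {a : ι → ℝ} {R : ℝ}
    (h : OPackIn n a (tri (n + 1) R)) (i : ι) (hi : 0 < a i) : a i ≤ R := by
  obtain ⟨σ, b, key, h1, -⟩ := h
  by_contra hcon
  push Not at hcon
  set e : ℝ := min (a i - R) (a i) / 2 with he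
  have hm : 0 < min (a i - R) (a i) := lt_min (by linarith) hi
  have he0 : 0 < e := by positivity
  have he1 : e < a i := by
    have := min_le_right (a i - R) (a i)
    linarith
  have he2 : e < a i - R := by
    have := min_le_left (a i - R) (a i)
    linarith
  set δ : ℝ := e / (n + 2) with hδ
  have hn : (0 : ℝ) < n + 2 := by positivity
  have hδ0 : 0 < δ := by positivity
  have hδe : (n + 2) * δ = e := by
    rw [hδ]
    field_simp
  -- a point of the cell for a point of the simplex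
  have hpt : ∀ u : Fin (n + 1) → ℝ, u ∈ tri (n + 1) (a i) →
      0 < u (Fin.last n) + b i (Fin.last n) ∧ u (Fin.last n) + b i (Fin.last n) < R := by
    intro u hu
    have hy : (fun j => u ((σ i).symm j) + b i ((σ i).symm j)) ∈ cell (σ i) (b i) (a i) := by
      unfold cell
      simp only [Set.mem_ofPred_eq, Equiv.symm_apply_apply, add_sub_cancel_right]
      exact hu
    have h2 := h1 i hy
    have h3 := h2.1 (σ i (Fin.last n))
    have h4 := h2.2.2 (σ i (Fin.last n))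
    simp only [Equiv.symm_apply_apply] at h3 h4
    exact ⟨h3, h4⟩
  have hk : ∀ k : Fin (n + 1), ((k : ℕ) : ℝ) ≤ n := fun k => by
    exact_mod_cast Nat.lt_succ_iff.1 k.2
  have hk0 : ∀ k : Fin (n + 1), (0 : ℝ) ≤ ((k : ℕ) : ℝ) := fun k => Nat.cast_nonneg _
  have hu1 : (fun k : Fin (n + 1) => (((k : ℕ) : ℝ) + 1) * δ) ∈ tri (n + 1) (a i) := by
    refine ⟨fun k => ?_, fun k l hkl => ?_, fun k => ?_⟩
    · have := hk0 k
      positivity
    · have h2 : ((k : ℕ) : ℝ) < ((l : ℕ) : ℝ) := by exact_mod_cast hkl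
      show (((k : ℕ) : ℝ) + 1) * δ < (((l : ℕ) : ℝ) + 1) * δ
      exact mul_lt_mul_of_pos_right (by linarith) hδ0
    · have h2 : (((k : ℕ) : ℝ) + 1) * δ ≤ (n + 2) * δ :=
        mul_le_mul_of_nonneg_right (by linarith [hk k]) hδ0.le
      show (((k : ℕ) : ℝ) + 1) * δ < a i
      linarith
  have hu2 : (fun k : Fin (n + 1) => a i - (n + 1 - ((k : ℕ) : ℝ)) * δ) ∈
      tri (n + 1) (a i) := by
    refine ⟨fun k => ?_, fun k l hkl => ?_, fun k => ?_⟩
    · have h2 : (n + 1 - ((k : ℕ) : ℝ)) * δ ≤ (n + 2) * δ :=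
        mul_le_mul_of_nonneg_right (by linarith [hk0 k]) hδ0.le
      show 0 < a i - (n + 1 - ((k : ℕ) : ℝ)) * δ
      linarith
    · have h2 : ((k : ℕ) : ℝ) < ((l : ℕ) : ℝ) := by exact_mod_cast hkl
      have h3 : (n + 1 - ((l : ℕ) : ℝ)) * δ < (n + 1 - ((k : ℕ) : ℝ)) * δ :=
        mul_lt_mul_of_pos_right (by linarith) hδ0
      show a i - (n + 1 - ((k : ℕ) : ℝ)) * δ < a i - (n + 1 - ((l : ℕ) : ℝ)) * δ
      linarith
    · have h2 : 0 < (n + 1 - ((k : ℕ) : ℝ)) * δ := mul_pos (by linarith [hk k]) hδ0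
      show a i - (n + 1 - ((k : ℕ) : ℝ)) * δ < a i
      linarith
  have h5 := (hpt _ hu1).1
  have h6 := (hpt _ hu2).2
  simp only [Fin.val_last] at h5 h6
  linarith

end Vale.Agent.P209.MM
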