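import Vale.Agent.P209.MM.Q9

namespace Vale.Agent.P209.MM

open Vale.Agent.P209 Vale.Agent.P209.Strong

/-! Q10. Uniform version, by rounding the sizes. -/

theorem opack_uniform (d : ℕ) (hd : 1 ≤ d) (κ : Type) [Fintype κ] (γ ρ : ℝ) (hγ : 0 < γ)
    (hγ1 : γ < 1) (hρ : 0 < ρ) (δ N : ℝ) (hδ : 0 < δ) (hδ1 : δ ≤ 1) (hN : 0 ≤ N) :
    ∃ R0 : ℝ, 0 < R0 ∧ ∀ R, R0 ≤ R → ∀ b : κ → ℝ, (∀ i, ρ * R ≤ b i) →
      OPackIn d b (tri (d + 1) ((1 - γ) * R)) →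
      ∀ (ι : Type) [Fintype ι] (r : ι → ℝ) (J : Finset ι), (∀ i, 0 < r i ∧ r i ≤ 1) →
        (∀ i, i ∉ J → δ ≤ r i) → ∑ i ∈ J, r i ≤ N →
        ∑ i, b i ^ (d + 1) + ∑ i, r i ^ (d + 1) < R ^ (d + 1) →
        TPk (simplex (d + 1) R) (Sum.elim b r) := by
  classical
  obtain ⟨Q, hQ⟩ := exists_nat_gt (2 / (γ * ρ))
  have hγρ : 0 < γ * ρ := mul_pos hγ hρ
  have hQ0 : (0 : ℝ) < Q := (by positivity : (0 : ℝ) < 2 / (γ * ρ)).trans hQ
  set η : ℝ := 1 / Q with hη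
  have hη0 : 0 < η := by positivity
  have hη2 : 2 * η ≤ γ * ρ := by
    rw [div_lt_iff₀ hγρ] at hQ
    rw [hη, mul_one_div, div_le_iff₀ hQ0]
    linarith
  have hηQ : η * Q = 1 := by rw [hη]; field_simp
  -- the threshold of a rounded family
  have key : ∀ f : κ → Fin (Q + 1), ∃ R0 : ℝ, 0 < R0 ∧
      ((∀ i, η ≤ η * (f i : ℕ)) → OPackIn d (fun i => η * ((f i : ℕ) : ℝ)) (tri (d + 1) 1) →
      ∀ R, R0 ≤ R → ∀ b : κ → ℝ, (∀ i, 0 ≤ b i) →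
      (∀ i, b i + η * R ≤ η * ((f i : ℕ) : ℝ) * R) →
      ∀ (ι : Type) [Fintype ι] (r : ι → ℝ) (J : Finset ι), (∀ i, 0 < r i ∧ r i ≤ 1) →
        (∀ i, i ∉ J → δ ≤ r i) → ∑ i ∈ J, r i ≤ N →
        ∑ i, b i ^ (d + 1) + ∑ i, r i ^ (d + 1) < R ^ (d + 1) →
        TPk (simplex (d + 1) R) (Sum.elim b r)) := by
    intro f
    by_cases h : (∀ i, η ≤ η * (f i : ℕ)) ∧
        OPackIn d (fun i => η * ((f i : ℕ) : ℝ)) (tri (d + 1) 1)
    · obtain ⟨R0, hR0, hR⟩ := opack_fill d hd κ (fun i => η * ((f i : ℕ) : ℝ)) η hη0 h.1 h.2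
        δ N hδ hδ1 hN
      exact ⟨R0, hR0, fun _ _ => hR⟩
    · exact ⟨1, one_pos, fun h1 h2 => absurd ⟨h1, h2⟩ h⟩
  choose R0 hR0 hR using key
  refine ⟨1 + ∑ f, R0 f, add_pos_of_pos_of_nonneg one_pos
    (Finset.sum_nonneg fun f _ => (hR0 f).le), ?_⟩
  intro R hRR b hb hpack ι _ r J h1 h2 h3 h4
  have hsum : 0 ≤ ∑ f, R0 f := Finset.sum_nonneg fun f _ => (hR0 f).le
  have hR1 : 0 < R := by linarith
  have hg : 0 < 1 - γ := by linarith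
  have hc : 0 < 1 / ((1 - γ) * R) := by positivity
  set β : κ → ℝ := fun i => 1 / ((1 - γ) * R) * b i with hβ
  have hβp : OPackIn d β (tri (d + 1) 1) := by
    have h := OPackIn.scale hc hpack
    have e : 1 / ((1 - γ) * R) * ((1 - γ) * R) = 1 := by field_simp
    rwa [e] at h
  have hbβ : ∀ i, b i = (1 - γ) * β i * R := by
    intro i
    rw [hβ]
    field_simp
  have hβρ : ∀ i, ρ ≤ β i := by
    intro i
    have h := hb i
    rw [hbβ i] at h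
    have h5 : ρ ≤ (1 - γ) * β i := le_of_mul_le_mul_right h hR1
    have h6 : 0 < β i := by
      by_contra h7
      push Not at h7
      have : (1 - γ) * β i ≤ 0 := mul_nonpos_of_nonneg_of_nonpos hg.le h7
      linarith
    nlinarith
  have hβ1 : ∀ i, β i ≤ 1 := fun i => OPackIn.le hβp i (hρ.trans_le (hβρ i))
  -- rounding
  have hfl : ∀ i, ⌊β i * Q⌋₊ < Q + 1 := by
    intro i
    have h5 : β i * Q ≤ Q := by nlinarith [hβ1 i]
    have h6 : ⌊β i * Q⌋₊ ≤ Q := by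
      have := Nat.floor_le_floor h5
      rwa [Nat.floor_natCast] at this
    omega
  set f : κ → Fin (Q + 1) := fun i => ⟨⌊β i * Q⌋₊, hfl i⟩ with hf
  have hfv : ∀ i, ((f i : ℕ) : ℝ) = (⌊β i * Q⌋₊ : ℝ) := fun i => rfl
  have hβ0 : ∀ i, 0 ≤ β i * Q := fun i => mul_nonneg (hρ.le.trans (hβρ i)) hQ0.le
  have hle : ∀ i, η * ((f i : ℕ) : ℝ) ≤ β i := by
    intro i
    rw [hfv]
    calc η * (⌊β i * Q⌋₊ : ℝ) ≤ η * (β i * Q) :=
          mul_le_mul_of_nonneg_left (Nat.floor_le (hβ0 i)) hη0.le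
      _ = β i * (η * Q) := by ring
      _ = β i := by rw [hηQ, mul_one]
  have hge : ∀ i, β i - η ≤ η * ((f i : ℕ) : ℝ) := by
    intro i
    rw [hfv]
    have h5 := (Nat.lt_floor_add_one (β i * Q)).le
    have h6 : η * (β i * Q) ≤ η * ((⌊β i * Q⌋₊ : ℝ) + 1) := mul_le_mul_of_nonneg_left h5 hη0.le
    have h7 : η * (β i * Q) = β i := by
      calc η * (β i * Q) = β i * (η * Q) := by ring
        _ = β i := by rw [hηQ, mul_one]
    rw [h7] at h6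
    linarith
  have hγβ : ∀ i, 2 * η ≤ γ * β i := fun i =>
    hη2.trans (mul_le_mul_of_nonneg_left (hβρ i) hγ.le)
  have hηβ : ∀ i, 2 * η ≤ β i := fun i => by nlinarith [hγβ i, hβρ i]
  have e1 : ∀ i, η ≤ η * ((f i : ℕ) : ℝ) := fun i => by linarith [hge i, hηβ i]
  have e2 : OPackIn d (fun i => η * ((f i : ℕ) : ℝ)) (tri (d + 1) 1) :=
    hβp.mono hle (Set.Subset.refl _)
  have e3 : ∀ i, b i + η * R ≤ η * ((f i : ℕ) : ℝ) * R := by
    intro i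
    have h5 : (1 - γ) * β i + η ≤ η * ((f i : ℕ) : ℝ) := by linarith [hge i, hγβ i]
    calc b i + η * R = ((1 - γ) * β i + η) * R := by rw [hbβ i]; ring
      _ ≤ η * ((f i : ℕ) : ℝ) * R := mul_le_mul_of_nonneg_right h5 hR1.le
  have e4 : R0 f ≤ R := by
    have h5 : R0 f ≤ ∑ f, R0 f :=
      Finset.single_le_sum (f := R0) (fun f _ => (hR0 f).le) (Finset.mem_univ f)
    linarith
  exact hR f e1 e2 R e4 b (fun i => (mul_pos hρ hR1).le.trans (hb i)) e3 ι r J h1 h2 h3 h4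

end Vale.Agent.P209.MM
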