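import Vale.Agent.P209.MM.Q1

namespace Vale.Agent.P209.MM

open Vale.Agent.P209

/-! Q2. Cells over the cells of a packing of the base. -/

theorem q2_card {α : Type} [Fintype α] {N : ℕ} (τ : α ≃ Fin N) (p : Fin N) :
    (Finset.univ.filter fun k => τ k < p).card = (p : ℕ) := by
  have h : (Finset.univ.filter fun k => τ k < p) = (Finset.Iio p).map τ.symm.toEmbedding := by
    ext k
    simp only [Finset.mem_filter, Finset.mem_univ, true_and, Finset.mem_map, Finset.mem_Iio,
      Equiv.coe_toEmbedding]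
    constructor
    · intro hk
      exact ⟨τ k, hk, by simp⟩
    · rintro ⟨a, ha, rfl⟩
      simpa using ha
  rw [h, Finset.card_map, Fin.card_Iio]

theorem q2_order {α : Type} [Fintype α] {N : ℕ} (τ τ' : α ≃ Fin N) {v v' : α → ℝ} {l : α}
    (hlt : ∀ x x', τ x < τ x' ↔ v x < v x') (hlt' : ∀ x x', τ' x < τ' x' ↔ v' x < v' x')
    (hag : ∀ x, x ≠ l → v x = v' x) (hl : v' l ≤ v l) (hkey : τ l ≤ τ' l) : τ = τ' := by
  have hsub : (Finset.univ.filter fun k => τ' k < τ' l) ⊆
      (Finset.univ.filter fun k => τ k < τ l) := by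
    intro k hk
    rw [Finset.mem_filter] at hk ⊢
    refine ⟨Finset.mem_univ _, ?_⟩
    have hk2 := hk.2
    have hkl : k ≠ l := by
      rintro rfl
      exact lt_irrefl _ hk2
    rw [hlt'] at hk2
    rw [hlt, hag k hkl]
    linarith
  have hcard := q2_card τ (τ l)
  have hcard' := q2_card τ' (τ' l)
  have hset := Finset.eq_of_subset_of_card_le hsub (by
    rw [hcard, hcard']
    exact hkey)
  have hiff : ∀ k, τ' k < τ' l ↔ τ k < τ l := by
    intro k
    have := Finset.ext_iff.1 hset k
    simpa using this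
  have q : ∀ j j', τ j < τ j' → τ' j < τ' j' := by
    intro j j' hjj
    by_cases hj : j = l
    · have hj' : j' ≠ l := by
        rintro rfl
        rw [hj] at hjj
        exact lt_irrefl _ hjj
      rcases lt_trichotomy (τ' j) (τ' j') with h | h | h
      · exact h
      · exact absurd (τ'.injective h) (by rw [hj]; exact fun h => hj' h.symm)
      · rw [hj] at h hjj
        have := (hiff j').1 h
        exact absurd hjj (not_lt.2 this.le)
    · by_cases hj' : j' = l
      · rw [hj'] at hjj ⊢
        exact (hiff j).2 hjj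
      · rw [hlt] at hjj
        rw [hlt', ← hag j hj, ← hag j' hj']
        exact hjj
  have e3 : StrictMono (τ.symm.trans τ' : Equiv.Perm (Fin N)) := by
    intro i i' hii
    simp only [Equiv.trans_apply]
    apply q
    simpa using hii
  have e4 : (τ.symm.trans τ' : Equiv.Perm (Fin N)) = 1 := (Equiv.Perm.monotone_iff _).1 e3.monotone
  ext x
  have := congrArg (fun e : Equiv.Perm (Fin N) => e (τ x)) e4
  simp only [Equiv.trans_apply, Equiv.symm_apply_apply, Equiv.Perm.coe_one, id] at this
  rw [this]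

section
variable {n d k : ℕ} (hk : d + (k + 1) = n + 1)

/-- labels of the coordinates -/
def q2lab : Fin d ⊕ Fin (k + 1) ≃ Fin (n + 1) := finSumFinEquiv.trans (finCongr hk)

theorem q2lab_inl (c : Fin d) : ((q2lab hk (Sum.inl c) : Fin (n + 1)) : ℕ) = c := by
  simp [q2lab]

theorem q2lab_inr (c : Fin (k + 1)) : ((q2lab hk (Sum.inr c) : Fin (n + 1)) : ℕ) = d + c := by
  simp [q2lab]

theorem q2lab_last : q2lab hk (Sum.inr (Fin.last k)) = Fin.last n := by
  apply Fin.ext
  rw [q2lab_inr]
  simp only [Fin.val_last]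
  omega

/-- the permutation of a shuffle -/
def q2perm (S : Fin d ⊕ Fin (k + 1) ≃ Fin (n + 1)) (σ : Equiv.Perm (Fin d)) :
    Equiv.Perm (Fin (n + 1)) :=
  S.symm.trans ((Equiv.sumCongr σ (Equiv.refl _)).trans (q2lab hk))

/-- the shifts of a shuffle -/
def q2shift (S : Fin d ⊕ Fin (k + 1) ≃ Fin (n + 1)) (b : Fin d → ℝ) (h : ℝ) :
    Fin (n + 1) → ℝ := fun p => Sum.elim b (fun _ => h) (S.symm p)

/-- fractional parts -/
def q2val (σ : Equiv.Perm (Fin d)) (b : Fin d → ℝ) (h : ℝ) (y : Fin (n + 1) → ℝ) :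
    Fin d ⊕ Fin (k + 1) → ℝ :=
  Sum.elim (fun c => y (q2lab hk (Sum.inl (σ c))) - b c)
    (fun c => y (q2lab hk (Sum.inr c)) - h)

theorem q2_mem (S : Fin d ⊕ Fin (k + 1) ≃ Fin (n + 1)) (σ : Equiv.Perm (Fin d))
    (b : Fin d → ℝ) (h a : ℝ) (y : Fin (n + 1) → ℝ) :
    y ∈ cell (q2perm hk S σ) (q2shift S b h) a ↔
      (∀ x, 0 < q2val hk σ b h y x) ∧
      (∀ x x', S x < S x' ↔ q2val hk σ b h y x < q2val hk σ b h y x') ∧
      ∀ x, q2val hk σ b h y x < a := by
  have hval : ∀ x, y (q2perm hk S σ (S x)) - q2shift S b h (S x) = q2val hk σ b h y x := by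
    intro x
    rcases x with c | c <;> simp [q2perm, q2shift, q2val]
  constructor
  · intro hy
    obtain ⟨h0, h1, h2⟩ := hy
    refine ⟨fun x => ?_, fun x x' => ?_, fun x => ?_⟩
    · rw [← hval]; exact h0 (S x)
    · rw [← hval, ← hval]
      exact (h1.lt_iff_lt (a := S x) (b := S x')).symm
    · rw [← hval]; exact h2 (S x)
  · rintro ⟨h0, h1, h2⟩
    refine ⟨fun p => ?_, fun p p' hpp => ?_, fun p => ?_⟩
    · have := h0 (S.symm p)
      rw [← hval] at this
      simpa using this
    · have := (h1 (S.symm p) (S.symm p')).1 (by simpa using hpp)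
      rw [← hval, ← hval] at this
      simpa using this
    · have := h2 (S.symm p)
      rw [← hval] at this
      simpa using this

end

/-- the shuffle of a subset -/
noncomputable def q2S {n d k : ℕ} (hk : d + (k + 1) = n + 1)
    (A : {A : Finset (Fin (n + 1)) // A.card = d}) : Fin d ⊕ Fin (k + 1) ≃ Fin (n + 1) :=
  finSumEquivOfFinset A.2 (by rw [Finset.card_compl, A.2, Fintype.card_fin]; omega)

theorem q2S_inj {n d k : ℕ} (hk : d + (k + 1) = n + 1)
    {A A' : {A : Finset (Fin (n + 1)) // A.card = d}} (h : q2S hk A = q2S hk A') : A = A' := by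
  have key : ∀ B : {A : Finset (Fin (n + 1)) // A.card = d},
      (B.1 : Set (Fin (n + 1))) = Set.range fun c : Fin d => q2S hk B (Sum.inl c) := by
    intro B
    have : (fun c : Fin d => q2S hk B (Sum.inl c)) = B.1.orderEmbOfFin B.2 := by
      funext c
      simp [q2S]
    rw [this, Finset.range_orderEmbOfFin]
  apply Subtype.ext
  apply Finset.coe_injective
  rw [key A, key A', h]

theorem q2S_inl_lt {n d k : ℕ} (hk : d + (k + 1) = n + 1)
    (A : {A : Finset (Fin (n + 1)) // A.card = d}) {c c' : Fin d} (h : c < c') :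
    q2S hk A (Sum.inl c) < q2S hk A (Sum.inl c') := by
  simpa [q2S] using h

theorem q2S_inr_lt {n d k : ℕ} (hk : d + (k + 1) = n + 1)
    (A : {A : Finset (Fin (n + 1)) // A.card = d}) {c c' : Fin (k + 1)} (h : c < c') :
    q2S hk A (Sum.inr c) < q2S hk A (Sum.inr c') := by
  simpa [q2S] using h

/-- Over every cell of size `b i` of a packing of the `d`-dimensional simplex of size `h`, the
region of points with exactly `d` coordinates below `h` contains `(n + 1).choose d` cells. -/
theorem prod_cells {n d : ℕ} (hd1 : 1 ≤ d) (hd : d ≤ n) {ι : Type} {b : ι → ℝ} {h s : ℝ}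
    (hb : TPack d b h) (hbs : ∀ i, b i ≤ s) :
    OPackIn n (fun p : ι × Fin ((n + 1).choose d) => b p.1) (Reg n d h s) := by
  classical
  obtain ⟨σ, t, hsub, hdis⟩ := hb
  obtain ⟨k, hk⟩ : ∃ k, d + (k + 1) = n + 1 := ⟨n - d, by omega⟩
  let e : Fin ((n + 1).choose d) ≃ {A : Finset (Fin (n + 1)) // A.card = d} :=
    (Fintype.equivFinOfCardEq (by
      rw [Fintype.card_finset_len, Fintype.card_fin])).symm
  let S : Fin ((n + 1).choose d) → (Fin d ⊕ Fin (k + 1) ≃ Fin (n + 1)) := fun r => q2S hk (e r)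
  -- the base point
  have hbase : ∀ (i : ι) (r : Fin ((n + 1).choose d)) (y : Fin (n + 1) → ℝ),
      y ∈ cell (q2perm hk (S r) (σ i)) (q2shift (S r) (t i) h) (b i) →
      (fun c => y (q2lab hk (Sum.inl c))) ∈ cell (σ i) (t i) (b i) := by
    intro i r y hy
    rw [q2_mem] at hy
    obtain ⟨h0, h1, h2⟩ := hy
    refine ⟨fun c => h0 (Sum.inl c), fun c c' hcc => ?_, fun c => h2 (Sum.inl c)⟩
    exact (h1 (Sum.inl c) (Sum.inl c')).1 (q2S_inl_lt hk (e r) hcc)
  refine ⟨fun p => q2perm hk (S p.2) (σ p.1), fun p => q2shift (S p.2) (t p.1) h,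
    fun p => (S p.2 (Sum.inr (Fin.last k)) : ℕ), ?_, ?_⟩
  · rintro ⟨i, r⟩ y hy
    have hb1 := hsub i (hbase i r y hy)
    have hy' := hy
    rw [q2_mem] at hy'
    obtain ⟨h0, h1, h2⟩ := hy'
    have hlow : ∀ j : Fin (n + 1), (j : ℕ) < d → 0 < y j ∧ y j < h := by
      intro j hj
      have ej : q2lab hk (Sum.inl ⟨j, hj⟩) = j := Fin.ext (q2lab_inl hk _)
      have a0 := hb1.1 ⟨j, hj⟩
      have a1 := hb1.2.2 ⟨j, hj⟩
      simp only [ej] at a0 a1
      exact ⟨a0, a1⟩
    have hhpos : 0 < h := by
      have := hlow ⟨0, Nat.succ_pos n⟩ hd1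
      linarith
    have etop : ∀ j : Fin (n + 1), d ≤ (j : ℕ) → ∃ c : Fin (k + 1),
        q2lab hk (Sum.inr c) = j := by
      intro j hj
      have h3 := j.2
      refine ⟨⟨(j : ℕ) - d, by omega⟩, Fin.ext ?_⟩
      rw [q2lab_inr]
      simp only
      omega
    have htop : ∀ j : Fin (n + 1), d ≤ (j : ℕ) → h < y j ∧ y j < h + b i := by
      intro j hj
      obtain ⟨c, rfl⟩ := etop j hj
      have a0 := h0 (Sum.inr c)
      have a1 := h2 (Sum.inr c)
      simp only [q2val, Sum.elim_inr] at a0 a1
      constructor <;> linarith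
    refine ⟨⟨fun j => ?_, fun j j' hjj => ?_, fun j => ?_⟩, fun j hj => (hlow j hj).2,
      fun j hj => (htop j hj).1⟩
    · rcases lt_or_ge (j : ℕ) d with hj | hj
      · exact (hlow j hj).1
      · have := (htop j hj).1
        linarith
    · rcases lt_or_ge (j : ℕ) d with hj | hj
      · rcases lt_or_ge (j' : ℕ) d with hj' | hj'
        · have ej : q2lab hk (Sum.inl ⟨j, hj⟩) = j := Fin.ext (q2lab_inl hk _)
          have ej' : q2lab hk (Sum.inl ⟨j', hj'⟩) = j' := Fin.ext (q2lab_inl hk _)
          have a := hb1.2.1 (show (⟨j, hj⟩ : Fin d) < ⟨j', hj'⟩ from hjj)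
          simp only [ej, ej'] at a
          exact a
        · have a1 := (hlow j hj).2
          have a2 := (htop j' hj').1
          linarith
      · have hj' : d ≤ (j' : ℕ) := hj.trans (le_of_lt hjj)
        obtain ⟨c, rfl⟩ := etop j hj
        obtain ⟨c', rfl⟩ := etop j' hj'
        have hcc : c < c' := by
          have h3 : ((q2lab hk (Sum.inr c) : Fin (n + 1)) : ℕ) <
            ((q2lab hk (Sum.inr c') : Fin (n + 1)) : ℕ) := hjj
          rw [q2lab_inr, q2lab_inr] at h3
          exact Fin.lt_def.2 (by omega)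
        have a := (h1 (Sum.inr c) (Sum.inr c')).1 (q2S_inr_lt hk (e r) hcc)
        simp only [q2val, Sum.elim_inr] at a
        linarith
    · rcases lt_or_ge (j : ℕ) d with hj | hj
      · have a1 := (hlow j hj).2
        have a2 := (htop (Fin.last n) (by simpa using hd))
        have a3 := hbs i
        linarith
      · have a1 := (htop j hj).2
        have a3 := hbs i
        linarith
  · rintro ⟨i, r⟩ ⟨i', r'⟩ hne hkey y hy y' hy' hag
    simp only at hy hy' hkey
    have hbb : (fun c => y (q2lab hk (Sum.inl c))) = fun c => y' (q2lab hk (Sum.inl c)) := by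
      funext c
      apply hag
      rw [q2lab_inl]
      exact lt_of_lt_of_le c.2 hd
    by_cases hii : i = i'
    · subst hii
      by_contra hcon
      rw [not_lt] at hcon
      rw [q2_mem] at hy hy'
      obtain ⟨h0, h1, h2⟩ := hy
      obtain ⟨h0', h1', h2'⟩ := hy'
      have hS : S r = S r' := by
        refine q2_order (S r) (S r') (l := Sum.inr (Fin.last k)) h1 h1' ?_ ?_ hkey
        · intro x hx
          rcases x with c | c
          · simp only [q2val, Sum.elim_inl]
            have := congrFun hbb (σ i c)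
            rw [this]
          · simp only [q2val, Sum.elim_inr]
            rw [hag]
            rw [q2lab_inr]
            have h3 : c ≠ Fin.last k := fun h => hx (by rw [h])
            have h4 : (c : ℕ) ≠ k := fun h => h3 (Fin.ext (by simpa using h))
            have h5 := c.2
            omega
        · simp only [q2val, Sum.elim_inr, q2lab_last]
          linarith
      have hrr : r = r' := e.injective (q2S_inj hk hS)
      exact hne (by rw [hrr])
    · exfalso
      have a := hbase i r y hy
      have a' := hbase i' r' y' hy'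
      rw [← hbb] at a'
      exact Set.disjoint_left.1 (hdis hii) a a'

end Vale.Agent.P209.MM
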