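import Mathlib

namespace Vale.Agent.P209.MM

/-! Q3. The inequality behind the induction. -/

theorem q3_deriv (N e : ℕ) (he : e + 1 ≤ N) (h t : ℝ) :
    HasDerivAt (fun t : ℝ => ∑ i ∈ Finset.range (e + 1),
        (N.choose i : ℝ) * t ^ (N - i) * (h - t) ^ i)
      (((e : ℝ) + 1) * (N.choose (e + 1) : ℝ) * t ^ (N - (e + 1)) * (h - t) ^ e) t := by
  induction e with
  | zero =>
    have h1 : HasDerivAt (fun t : ℝ => t ^ N) ((N : ℝ) * t ^ (N - 1)) t := hasDerivAt_pow N t
    have h2 : (fun t : ℝ => ∑ i ∈ Finset.range (0 + 1),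
        (N.choose i : ℝ) * t ^ (N - i) * (h - t) ^ i) = fun t : ℝ => t ^ N := by
      funext s
      simp
    rw [h2]
    convert h1 using 1
    simp
  | succ e ih =>
    have ih' := ih (by omega)
    have h1 : HasDerivAt (fun t : ℝ => t ^ (N - (e + 1)))
        (((N - (e + 1) : ℕ) : ℝ) * t ^ (N - (e + 1) - 1)) t := hasDerivAt_pow _ t
    have h2 : HasDerivAt (fun t : ℝ => (h - t) ^ (e + 1))
        (((e + 1 : ℕ) : ℝ) * (h - t) ^ (e + 1 - 1) * (-1)) t :=
      ((hasDerivAt_id t).const_sub h).pow (e + 1)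
    have h3 := ((h1.const_mul (N.choose (e + 1) : ℝ)).mul h2)
    have h4 := ih'.add h3
    have hfun : (fun t : ℝ => ∑ i ∈ Finset.range (e + 1 + 1),
        (N.choose i : ℝ) * t ^ (N - i) * (h - t) ^ i) =
        ((fun t : ℝ => ∑ i ∈ Finset.range (e + 1),
        (N.choose i : ℝ) * t ^ (N - i) * (h - t) ^ i) +
        ((fun t : ℝ => (N.choose (e + 1) : ℝ) * t ^ (N - (e + 1))) *
          fun t : ℝ => (h - t) ^ (e + 1))) := by
      funext s
      rw [Finset.sum_range_succ]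
      rfl
    rw [hfun]
    refine h4.congr_deriv ?_
    symm
    have hc : (((e + 1 : ℕ) : ℝ) + 1) * (N.choose (e + 1 + 1) : ℝ) =
        (N.choose (e + 1) : ℝ) * ((N - (e + 1) : ℕ) : ℝ) := by
      have := Nat.choose_succ_right_eq N (e + 1)
      have h5 : ((N.choose (e + 1 + 1) * (e + 1 + 1) : ℕ) : ℝ) =
          ((N.choose (e + 1) * (N - (e + 1)) : ℕ) : ℝ) := by rw [this]
      push_cast at h5 ⊢
      linarith
    rw [hc, show N - (e + 1 + 1) = N - (e + 1) - 1 by omega, show e + 1 - 1 = e by omega]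
    push_cast
    ring

theorem star_step (N d : ℕ) (hd1 : 1 ≤ d) (hd : d ≤ N) {h w v : ℝ} (hv : 0 ≤ v) (hvw : v ≤ w)
    (hwh : w ≤ h) :
    ∑ i ∈ Finset.range (d + 1), (N.choose i : ℝ) * v ^ (N - i) * (h - v) ^ i ≤
      ∑ i ∈ Finset.range d, (N.choose i : ℝ) * w ^ (N - i) * (h - w) ^ i +
        (N.choose d : ℝ) * v ^ (N - d) * (h - w) ^ d := by
  obtain ⟨e, rfl⟩ : ∃ e, d = e + 1 := ⟨d - 1, by omega⟩
  rw [Finset.sum_range_succ]
  set φ : ℝ → ℝ := fun t => ∑ i ∈ Finset.range (e + 1),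
      (N.choose i : ℝ) * t ^ (N - i) * (h - t) ^ i +
        (N.choose (e + 1) : ℝ) * v ^ (N - (e + 1)) * (h - t) ^ (e + 1) with hφ
  have hder : ∀ t : ℝ, HasDerivAt φ
      (((e : ℝ) + 1) * (N.choose (e + 1) : ℝ) * t ^ (N - (e + 1)) * (h - t) ^ e +
        (N.choose (e + 1) : ℝ) * v ^ (N - (e + 1)) *
          (((e + 1 : ℕ) : ℝ) * (h - t) ^ (e + 1 - 1) * (-1))) t := by
    intro t
    have h2 : HasDerivAt (fun t : ℝ => (h - t) ^ (e + 1))
        (((e + 1 : ℕ) : ℝ) * (h - t) ^ (e + 1 - 1) * (-1)) t :=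
      ((hasDerivAt_id t).const_sub h).pow (e + 1)
    exact (q3_deriv N e hd h t).add (h2.const_mul _)
  have hmono : MonotoneOn φ (Set.Icc v h) := by
    apply monotoneOn_of_deriv_nonneg (convex_Icc v h)
    · exact fun t _ => (hder t).continuousAt.continuousWithinAt
    · exact fun t _ => (hder t).differentiableAt.differentiableWithinAt
    · intro t ht
      rw [interior_Icc] at ht
      rw [(hder t).deriv]
      have h1 : v ^ (N - (e + 1)) ≤ t ^ (N - (e + 1)) := pow_le_pow_left₀ hv ht.1.le _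
      have h2 : 0 ≤ (h - t) ^ e := pow_nonneg (by linarith [ht.2]) _
      have h3 : 0 ≤ ((e : ℝ) + 1) * (N.choose (e + 1) : ℝ) := by positivity
      have h4 : 0 ≤ ((e : ℝ) + 1) * (N.choose (e + 1) : ℝ) * (h - t) ^ e *
          (t ^ (N - (e + 1)) - v ^ (N - (e + 1))) :=
        mul_nonneg (mul_nonneg h3 h2) (by linarith)
      calc (0 : ℝ) ≤ _ := h4
        _ = _ := by
          rw [show e + 1 - 1 = e by omega]
          push_cast
          ring
  have := hmono (Set.mem_Icc.2 ⟨le_refl v, hvw.trans hwh⟩) (Set.mem_Icc.2 ⟨hvw, hwh⟩) hvw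
  simpa only [hφ] using this

/-- Binomial formula without its last term. -/
theorem star_top (n : ℕ) (h w : ℝ) :
    ∑ i ∈ Finset.range (n + 1), ((n + 1).choose i : ℝ) * w ^ (n + 1 - i) * (h - w) ^ i =
      h ^ (n + 1) - (h - w) ^ (n + 1) := by
  have h1 := add_pow (h - w) w (n + 1)
  rw [show h - w + w = h by ring, Finset.sum_range_succ] at h1
  rw [h1]
  simp only [Nat.sub_self, pow_zero, Nat.choose_self, Nat.cast_one, mul_one]
  rw [add_sub_cancel_right]
  apply Finset.sum_congr rfl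
  intro i _
  ring

end Vale.Agent.P209.MM
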