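import Vale.Agent.P209.MM.Q2

namespace Vale.Agent.P209.MM

open Vale.Agent.P209

/-! Q4. Filling one region with consecutive balls. -/

private lemma q4_block (N C : ℕ) (hC : 1 ≤ C) (x : ℕ → ℝ) (hx : Antitone x)
    (hx0 : ∀ i, 0 ≤ x i) (m : ℕ) :
    x m ^ N + ((C : ℝ) - 1) * x (m + C) ^ N ≤ ∑ c ∈ Finset.range C, x (m + c) ^ N := by
  obtain ⟨C', rfl⟩ : ∃ C', C = C' + 1 := ⟨C - 1, by omega⟩
  rw [Finset.sum_range_succ', add_comm, add_zero]
  have h1 : ∑ _c ∈ Finset.range C', x (m + (C' + 1)) ^ N ≤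
      ∑ c ∈ Finset.range C', x (m + (c + 1)) ^ N := by
    refine Finset.sum_le_sum fun c hc => ?_
    have hc' := Finset.mem_range.1 hc
    exact pow_le_pow_left₀ (hx0 _) (hx (by omega)) N
  rw [Finset.sum_const, Finset.card_range, nsmul_eq_mul] at h1
  push_cast
  linarith

private lemma q4_vol (N C : ℕ) (hC : 1 ≤ C) (x : ℕ → ℝ) (hx : Antitone x)
    (hx0 : ∀ i, 0 ≤ x i) (p : ℕ) :
    x 0 ^ N + (C : ℝ) * ∑ g ∈ Finset.Ico 1 (p + 1), x (g * C) ^ N +
      ((C : ℝ) - 1) * x ((p + 1) * C) ^ N ≤ ∑ i ∈ Finset.range ((p + 1) * C), x i ^ N := by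
  induction p with
  | zero =>
    have h := q4_block N C hC x hx hx0 0
    simp only [zero_add] at h
    simpa using h
  | succ p ih =>
    have h := q4_block N C hC x hx hx0 ((p + 1) * C)
    have e1 : (p + 1 + 1) * C = (p + 1) * C + C := by ring
    rw [e1, Finset.sum_range_add, Finset.sum_Ico_succ_top (by omega)]
    linarith

private lemma q4_pack (n d : ℕ) (hd1 : 1 ≤ d) (hd : d ≤ n) (IH : MMd d) (x : ℕ → ℝ)
    (hx : Antitone x) (hx0 : ∀ i, 0 ≤ x i) {h s : ℝ} (hxh : x 0 < h) (hxs : x 0 ≤ s)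
    (p : ℕ)
    (hp : ∑ g ∈ Finset.Ico 1 p, x (g * (n + 1).choose d) ^ d < (h - x 0) ^ d) :
    OPackIn n (fun i : Fin (p * (n + 1).choose d) => x i) (Reg n d h s) := by
  have h1 := IH p (fun g => x (g * (n + 1).choose d)) h
    (fun a b hab => hx (Nat.mul_le_mul_right _ hab)) (fun _ => hx0 _)
    (by simpa using hxh) (by simpa using hp)
  have h2 := prod_cells (n := n) (s := s) hd1 hd h1
    (fun i => (hx (Nat.zero_le _)).trans hxs)
  have h3 := h2.comp (f := (finProdFinEquiv (m := p) (n := (n + 1).choose d)).symm)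
    (Equiv.injective _)
  refine h3.mono (fun i => ?_) (subset_refl _)
  refine hx ?_
  show ((finProdFinEquiv.symm i).1 : ℕ) * (n + 1).choose d ≤ (i : ℕ)
  have e : ((finProdFinEquiv.symm i).1 : ℕ) = (i : ℕ) / (n + 1).choose d := rfl
  rw [e]
  exact Nat.div_mul_le_self _ _

/-- Either all balls are placed, or the balls placed have large volume. -/
theorem class_fill (n d : ℕ) (hd1 : 1 ≤ d) (hd : d ≤ n) (IH : MMd d) (k : ℕ) (x : ℕ → ℝ)
    (hx : Antitone x) (hx0 : ∀ i, 0 ≤ x i) {h s : ℝ} (hxh : x 0 < h) (hxs : x 0 ≤ s) :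
    ∃ t : ℕ, 1 ≤ t ∧ OPackIn n (fun i : Fin t => x i) (Reg n d h s) ∧
      (k ≤ t ∨ x 0 ^ (n + 1) - x t ^ (n + 1) +
        ((n + 1).choose d : ℝ) * x t ^ (n + 1 - d) * (h - x 0) ^ d ≤
          ∑ i ∈ Finset.range t, x i ^ (n + 1)) := by
  classical
  have hC : 1 ≤ (n + 1).choose d := Nat.choose_pos (by omega)
  have hpos : 0 < (h - x 0) ^ d := pow_pos (by linarith) d
  by_cases hex : ∃ p : ℕ, (h - x 0) ^ d ≤
      ∑ g ∈ Finset.Ico 1 (p + 1), x (g * (n + 1).choose d) ^ d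
  · have hfind := Nat.find_spec hex
    have hmin := fun q => Nat.find_min hex (m := q)
    set p0 := Nat.find hex with hp0
    have hp1 : p0 ≠ 0 := by
      intro h0
      rw [h0] at hfind
      simp at hfind
      linarith
    obtain ⟨p, hp⟩ : ∃ p, p0 = p + 1 := ⟨p0 - 1, by omega⟩
    have hlt : ∑ g ∈ Finset.Ico 1 (p + 1), x (g * (n + 1).choose d) ^ d < (h - x 0) ^ d := by
      have := hmin p (by omega)
      exact not_le.1 this
    refine ⟨(p + 1) * (n + 1).choose d, ?_, ?_, Or.inr ?_⟩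
    · exact Nat.mul_pos (by omega) hC
    · exact q4_pack n d hd1 hd IH x hx hx0 hxh hxs (p + 1) hlt
    · rw [hp] at hfind
      have hv := q4_vol (n + 1) ((n + 1).choose d) hC x hx hx0 p
      set C := (n + 1).choose d with hCdef
      set y := x ((p + 1) * C) with hy
      have hy0 : 0 ≤ y := hx0 _
      rw [Finset.sum_Ico_succ_top (by omega)] at hfind
      have hsum : y ^ (n + 1 - d) * ∑ g ∈ Finset.Ico 1 (p + 1), x (g * C) ^ d ≤
          ∑ g ∈ Finset.Ico 1 (p + 1), x (g * C) ^ (n + 1) := by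
        rw [Finset.mul_sum]
        refine Finset.sum_le_sum fun g hg => ?_
        have hg' := (Finset.mem_Ico.1 hg).2
        have e : n + 1 = (n + 1 - d) + d := by omega
        have e2 : x (g * C) ^ (n + 1) = x (g * C) ^ (n + 1 - d) * x (g * C) ^ d := by
          rw [← pow_add, ← e]
        rw [e2]
        refine mul_le_mul_of_nonneg_right ?_ (pow_nonneg (hx0 _) _)
        exact pow_le_pow_left₀ hy0 (hx (Nat.mul_le_mul_right _ (by omega))) _
      have hyN : y ^ (n + 1) = y ^ (n + 1 - d) * y ^ d := by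
        rw [← pow_add]
        congr 1
        omega
      have hCr : (1 : ℝ) ≤ (C : ℝ) := by exact_mod_cast hC
      have hyp : 0 ≤ y ^ (n + 1 - d) := pow_nonneg hy0 _
      have h1 : y ^ (n + 1 - d) * ((h - x 0) ^ d - y ^ d) ≤
          y ^ (n + 1 - d) * ∑ g ∈ Finset.Ico 1 (p + 1), x (g * C) ^ d :=
        mul_le_mul_of_nonneg_left (by linarith) hyp
      have h2 : (C : ℝ) * (y ^ (n + 1 - d) * ((h - x 0) ^ d - y ^ d)) ≤
          (C : ℝ) * ∑ g ∈ Finset.Ico 1 (p + 1), x (g * C) ^ (n + 1) :=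
        mul_le_mul_of_nonneg_left (h1.trans hsum) (by linarith)
      have h3 : x 0 ^ (n + 1) - y ^ (n + 1) + (C : ℝ) * y ^ (n + 1 - d) * (h - x 0) ^ d =
          x 0 ^ (n + 1) + (C : ℝ) * (y ^ (n + 1 - d) * ((h - x 0) ^ d - y ^ d)) +
            ((C : ℝ) - 1) * y ^ (n + 1) := by
        rw [hyN]
        ring
      rw [h3]
      linarith
  · push Not at hex
    refine ⟨(k + 1) * (n + 1).choose d, ?_, ?_, Or.inl ?_⟩
    · exact Nat.mul_pos (by omega) hC
    · exact q4_pack n d hd1 hd IH x hx hx0 hxh hxs (k + 1) (hex k)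
    · calc k ≤ (k + 1) * 1 := by omega
        _ ≤ (k + 1) * (n + 1).choose d := Nat.mul_le_mul_left _ hC

end Vale.Agent.P209.MM
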