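import Vale.Agent.P209.MM.Q3
import Vale.Agent.P209.MM.Q4

namespace Vale.Agent.P209.MM

open Vale.Agent.P209

/-! Q5. Filling one layer. -/

/-- Filling the part of the layer where at most `m` coordinates are below `h`. -/
theorem layer_fill_aux (n : ℕ) (IH : ∀ d, 1 ≤ d → d ≤ n → MMd d) (k : ℕ) (x : ℕ → ℝ)
    (hx : Antitone x) (hx0 : ∀ i, 0 ≤ x i) {h : ℝ} (hxh : x 1 < h) (m : ℕ) (hm : m ≤ n) :
    ∃ t : ℕ, 1 ≤ t ∧ OPackIn n (fun i : Fin t => x i) (RegLe n m h (x 0)) ∧
      (k ≤ t ∨ ∑ i ∈ Finset.range (m + 1),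
        ((n + 1).choose i : ℝ) * x t ^ (n + 1 - i) * (h - x t) ^ i - x t ^ (n + 1) ≤
          ∑ i ∈ Finset.Ico 1 t, x i ^ (n + 1)) := by
  induction m with
  | zero =>
    have hh : 0 ≤ h := (hx0 1).trans hxh.le
    refine ⟨1, le_rfl, ?_, Or.inr ?_⟩
    · refine (OPackIn.single (n := n) hh (le_refl (x 0))).mono (fun i => ?_) (fun y hy => ?_)
      · rw [Subsingleton.elim i 0]
        exact le_rfl
      · exact ⟨hy.1, hy.2.2⟩
    · simp
  | succ m ih =>
    obtain ⟨t, ht1, hpack, halt⟩ := ih (by omega)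
    have hmono : RegLe n m h (x 0) ⊆ RegLe n (m + 1) h (x 0) := fun y hy =>
      ⟨hy.1, fun i hi => hy.2 i (by omega)⟩
    rcases halt with hkt | hvol
    · exact ⟨t, ht1, hpack.mono (fun _ => le_rfl) hmono, Or.inl hkt⟩
    · obtain ⟨t', ht1', hpack', halt'⟩ := class_fill n (m + 1) (by omega) hm
        (IH (m + 1) (by omega) hm) k (fun i => x (t + i))
        (fun a b hab => hx (by omega)) (fun _ => hx0 _) (h := h) (s := x 0)
        (lt_of_le_of_lt (hx (by omega : 1 ≤ t + 0)) hxh) (hx (Nat.zero_le _))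
      have hun := OPackIn.union hpack hpack' hmono
        (Ω := RegLe n (m + 1) h (x 0)) (fun y hy => ⟨hy.1, hy.2.2⟩) (by
          intro y hy y' hy' hyy
          exfalso
          have h1 := hy.2 ⟨m, by omega⟩ le_rfl
          have h2 := hy'.2.1 ⟨m, by omega⟩ (Nat.lt_succ_self m)
          have h3 := hyy ⟨m, by omega⟩ (by
            show m < n
            omega)
          linarith)
      have hre := hun.comp (f := (finSumFinEquiv (m := t) (n := t')).symm) (Equiv.injective _)
      refine ⟨t + t', by omega, ?_, ?_⟩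
      · refine hre.mono (fun i => ?_) (subset_refl _)
        refine Fin.addCases (fun i => ?_) (fun i => ?_) i
        · rw [finSumFinEquiv_symm_apply_castAdd]
          exact le_rfl
        · rw [finSumFinEquiv_symm_apply_natAdd]
          exact le_rfl
      · rcases halt' with hk' | hvol'
        · exact Or.inl (by omega)
        · refine Or.inr ?_
          have hs := star_step (n + 1) (m + 1) (by omega) (by omega) (h := h) (w := x t)
            (v := x (t + t')) (hx0 _) (hx (by omega))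
            ((hx (by omega : 1 ≤ t)).trans hxh.le)
          have e1 : ∑ i ∈ Finset.Ico 1 (t + t'), x i ^ (n + 1) =
              ∑ i ∈ Finset.Ico 1 t, x i ^ (n + 1) +
                ∑ i ∈ Finset.range t', x (t + i) ^ (n + 1) := by
            rw [← Finset.sum_Ico_consecutive _ ht1 (by omega : t ≤ t + t'),
              Finset.sum_Ico_eq_sum_range _ t (t + t'), Nat.add_sub_cancel_left]
          rw [e1]
          simp only [add_zero] at hvol'
          linarith

theorem layer_fill (n : ℕ) (IH : ∀ d, 1 ≤ d → d ≤ n → MMd d) (k : ℕ) (x : ℕ → ℝ)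
    (hx : Antitone x) (hx0 : ∀ i, 0 ≤ x i) {h : ℝ} (hxh : x 1 < h) :
    ∃ t : ℕ, 1 ≤ t ∧ OPackIn n (fun i : Fin t => x i) (RegLe n n h (x 0)) ∧
      (k ≤ t ∨ h ^ (n + 1) - (h - x t) ^ (n + 1) - x t ^ (n + 1) ≤
          ∑ i ∈ Finset.Ico 1 t, x i ^ (n + 1)) := by
  obtain ⟨t, h1, h2, h3⟩ := layer_fill_aux n IH k x hx hx0 hxh n le_rfl
  rw [star_top] at h3
  exact ⟨t, h1, h2, h3⟩

end Vale.Agent.P209.MM
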