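import Vale.Agent.P209.MM.Q5

namespace Vale.Agent.P209.MM

open Vale.Agent.P209

/-! Q6. The Meir-Moser type packing theorem for simplices. -/

theorem q6_union {n : ℕ} {κ μ : Type} [Finite κ] {c : κ → ℝ} {b : μ → ℝ} {h x0 R : ℝ}
    (hR : h + x0 = R) (h0 : 0 ≤ x0) (hc : OPackIn n c (tri (n + 1) h))
    {Ω : Set (Fin (n + 1) → ℝ)} (hΩ : ∀ y ∈ Ω, y ∈ tri (n + 1) (h + x0) ∧ h < y (Fin.last n))
    (hb : OPackIn n b Ω) : OPackIn n (Sum.elim c b) (tri (n + 1) R) := by
  refine OPackIn.union hc hb (tri_mono (by linarith)) ?_ ?_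
  · intro y hy
    rw [← hR]
    exact (hΩ y hy).1
  · intro y hy y' hy' _
    exact (hy.2.2 (Fin.last n)).trans (hΩ y' hy').2

/-- The packing theorem in dimension `n + 1`, given the theorem in smaller dimensions. -/
theorem mm_step (n : ℕ) (IH : ∀ d, 1 ≤ d → d ≤ n → MMd d) : ∀ (k : ℕ) {κ : Type} [Finite κ]
    (c : κ → ℝ) (L : ℝ) (x : ℕ → ℝ) (R : ℝ), 0 ≤ L → OPackIn n c (tri (n + 1) L) →
      Antitone x → (∀ i, 0 ≤ x i) → L ≤ R →
      (1 ≤ k → x 0 < R ∧ L ^ (n + 1) + ∑ i ∈ Finset.Ico 1 k, x i ^ (n + 1) <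
        (R - x 0) ^ (n + 1)) →
      OPackIn n (Sum.elim c (fun i : Fin k => x i)) (tri (n + 1) R) := by
  intro k
  induction k using Nat.strong_induction_on with
  | _ k ih =>
  intro κ _ c L x R hL hc hx hx0 hLR hk
  rcases Nat.eq_zero_or_pos k with rfl | hkpos
  · have h1 : OPackIn n c (tri (n + 1) R) := hc.mono (fun _ => le_rfl) (tri_mono hLR)
    have h2 : Function.Injective (Sum.elim id (fun i : Fin 0 => i.elim0) : κ ⊕ Fin 0 → κ) := by
      rintro (a | a) (b | b) hab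
      · exact congrArg Sum.inl hab
      · exact b.elim0
      · exact a.elim0
      · exact a.elim0
    refine (h1.comp h2).mono ?_ subset_rfl
    rintro (a | a)
    · exact le_rfl
    · exact a.elim0
  obtain ⟨hxR, hvol⟩ := hk hkpos
  obtain ⟨h, hhd⟩ : ∃ h, h = R - x 0 := ⟨_, rfl⟩
  rw [← hhd] at hvol
  have hh : 0 < h := by linarith
  have hRh : h + x 0 = R := by linarith
  have hsn : 0 ≤ ∑ i ∈ Finset.Ico 1 k, x i ^ (n + 1) :=
    Finset.sum_nonneg fun i _ => pow_nonneg (hx0 i) _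
  have hLh : L < h := lt_of_pow_lt_pow_left₀ (n + 1) hh.le (by linarith)
  have hc' : OPackIn n c (tri (n + 1) h) := hc.mono (fun _ => le_rfl) (tri_mono hLh.le)
  by_cases hk1 : k = 1
  · subst hk1
    have h1 : OPackIn n (fun _ : Fin 1 => x 0) (Reg n 0 h (x 0)) := OPackIn.single hh.le le_rfl
    refine (q6_union hRh (hx0 0) hc' (fun y hy => ⟨hy.1, hy.2.2 _ (Nat.zero_le _)⟩) h1).mono
      ?_ subset_rfl
    rintro (a | a)
    · exact le_rfl
    · have : a = 0 := Subsingleton.elim _ _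
      subst this
      exact le_rfl
  have hk2 : 2 ≤ k := by omega
  have hx1 : x 1 < h := by
    refine lt_of_pow_lt_pow_left₀ (n + 1) hh.le ?_
    have h1 : x 1 ^ (n + 1) ≤ ∑ i ∈ Finset.Ico 1 k, x i ^ (n + 1) :=
      Finset.single_le_sum (f := fun i => x i ^ (n + 1)) (fun i _ => pow_nonneg (hx0 i) _)
        (Finset.mem_Ico.2 ⟨le_rfl, by omega⟩)
    have h2 : 0 ≤ L ^ (n + 1) := pow_nonneg hL _
    linarith
  obtain ⟨t, ht1, hfill, hor⟩ := layer_fill n IH k x hx hx0 hx1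
  have hΩ : ∀ y ∈ RegLe n n h (x 0), y ∈ tri (n + 1) (h + x 0) ∧ h < y (Fin.last n) :=
    fun y hy => ⟨hy.1, hy.2 (Fin.last n) (by simp)⟩
  by_cases hkt : k ≤ t
  · have h1 : OPackIn n (fun i : Fin k => x i) (RegLe n n h (x 0)) :=
      hfill.comp (Fin.castLE_injective hkt)
    exact q6_union hRh (hx0 0) hc' hΩ h1
  have htk : t < k := by omega
  have hor' := hor.resolve_left hkt
  have hsum : ∑ i ∈ Finset.Ico 1 k, x i ^ (n + 1) = ∑ i ∈ Finset.Ico 1 t, x i ^ (n + 1) +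
      (x t ^ (n + 1) + ∑ i ∈ Finset.Ico 1 (k - t), x (t + i) ^ (n + 1)) := by
    rw [← Finset.sum_Ico_consecutive _ ht1 htk.le, Finset.sum_eq_sum_Ico_succ_bot htk]
    congr 2
    rw [Finset.sum_Ico_eq_sum_range, Finset.sum_Ico_eq_sum_range]
    have e : k - (t + 1) = k - t - 1 := by omega
    rw [e]
    refine Finset.sum_congr rfl fun i _ => ?_
    rw [add_assoc]
  have hxt : x t < h := (hx ht1).trans_lt hx1
  have h1 := ih (k - t) (by omega) c L (fun i => x (t + i)) h hL hc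
    (fun i j hij => hx (Nat.add_le_add_left hij t)) (fun i => hx0 _) hLh.le (fun _ => by
      refine ⟨by simpa using hxt, ?_⟩
      simp only [add_zero]
      linarith)
  have h2 := q6_union hRh (hx0 0) h1 hΩ hfill
  have hf : Function.Injective (Sum.elim (fun a => Sum.inl (Sum.inl a))
      (fun i : Fin k => if hi : (i : ℕ) < t then Sum.inr ⟨i, hi⟩ else
        Sum.inl (Sum.inr ⟨(i : ℕ) - t, by omega⟩)) : κ ⊕ Fin k → (κ ⊕ Fin (k - t)) ⊕ Fin t) := by
    rintro (a | i) (b | j) hab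
    · simp only [Sum.elim_inl, Sum.inl.injEq] at hab
      rw [hab]
    · simp only [Sum.elim_inl, Sum.elim_inr] at hab
      split_ifs at hab with hj
      · simp at hab
    · simp only [Sum.elim_inl, Sum.elim_inr] at hab
      split_ifs at hab with hj
      · simp at hab
    · simp only [Sum.elim_inr] at hab
      congr 1
      split_ifs at hab with hi hj hj
      · simp only [Sum.inr.injEq, Fin.mk.injEq] at hab
        exact Fin.ext hab
      · simp only [Sum.inl.injEq, Sum.inr.injEq, Fin.mk.injEq] at hab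
        exact Fin.ext (by omega)
  refine (h2.comp hf).mono ?_ subset_rfl
  rintro (a | i)
  · exact le_rfl
  · simp only [Sum.elim_inr]
    by_cases hi : (i : ℕ) < t
    · rw [dif_pos hi]
      exact le_rfl
    · rw [dif_neg hi]
      simp only [Sum.elim_inl, Sum.elim_inr]
      rw [Nat.add_sub_cancel' (not_lt.1 hi)]

theorem mm_all (d : ℕ) (hd : 1 ≤ d) : MMd d := by
  induction d using Nat.strong_induction_on with
  | _ d ih =>
  obtain ⟨n, rfl⟩ : ∃ n, d = n + 1 := ⟨d - 1, by omega⟩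
  intro k b h hb hb0 hbh hsum
  have h1 := mm_step n (fun d' h1 h2 => ih d' (by omega) h1) k (κ := Empty)
    (fun e => e.elim) 0 b h le_rfl OPackIn.empty hb hb0 ((hb0 0).trans hbh.le) (fun _ =>
      ⟨hbh, by rw [zero_pow (Nat.succ_ne_zero n), zero_add]; exact hsum⟩)
  exact h1.toTPack.comp Sum.inr_injective

theorem mm_rec (n k : ℕ) {κ : Type} [Finite κ] (c : κ → ℝ) (L : ℝ) (x : ℕ → ℝ) (R : ℝ)
    (hL : 0 ≤ L) (hc : OPackIn n c (tri (n + 1) L)) (hx : Antitone x) (hx0 : ∀ i, 0 ≤ x i)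
    (hLR : L ≤ R)
    (hk : 1 ≤ k → x 0 < R ∧ L ^ (n + 1) + ∑ i ∈ Finset.Ico 1 k, x i ^ (n + 1) <
      (R - x 0) ^ (n + 1)) :
    OPackIn n (Sum.elim c (fun i : Fin k => x i)) (tri (n + 1) R) :=
  mm_step n (fun d hd _ => mm_all d hd) k c L x R hL hc hx hx0 hLR hk

end Vale.Agent.P209.MM
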