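import Vale.Agent.P209.MM.Q1
import Vale.Agent.P209.Strong.K10

namespace Vale.Agent.P209.MM

open Vale.Agent.P209 Vale.Agent.P209.Strong

/-! Q7. Words: ordered packings in layers. -/

theorem q7_exists_eta (m j : ℕ) (T : ℝ) (S : ℕ → ℝ) (hT : 0 < T)
    (hS : ∀ q, j ≤ q → q < m → 0 < S q) :
    ∃ η : ℝ, 0 < η ∧ η ≤ T ∧ ∀ q, j ≤ q → q < m → η ≤ S q := by
  rcases (Finset.Ico j m).eq_empty_or_nonempty with h | h
  · refine ⟨T, hT, le_rfl, fun q h1 h2 => ?_⟩
    have h3 : q ∈ Finset.Ico j m := Finset.mem_Ico.2 ⟨h1, h2⟩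
    rw [h] at h3
    exact absurd h3 (Finset.notMem_empty q)
  · obtain ⟨q₀, hq₀, hmin⟩ := Finset.exists_min_image (Finset.Ico j m) S h
    rw [Finset.mem_Ico] at hq₀
    refine ⟨min T (S q₀), lt_min hT (hS q₀ hq₀.1 hq₀.2), min_le_left _ _, fun q h1 h2 => ?_⟩
    exact (min_le_right _ _).trans (hmin q (Finset.mem_Ico.2 ⟨h1, h2⟩))

theorem layers_opack (d m j : ℕ) (hj : j ≤ m) (T : ℝ) (S : ℕ → ℝ) (hT : 0 < T)
    (hS : ∀ q, j ≤ q → q < m → 0 < S q)
    (hanti : ∀ q q', j ≤ q → q ≤ q' → q' < m → S q' ≤ S q) (hjS : j < m → (j : ℝ) * S j ≤ T)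
    {R : ℝ} (hsum : T + ∑ q ∈ Finset.Ico j m, S q ≤ R) :
    OPackIn d (fun x : Option {w : Fin (d + 1) → Fin m // ∃ i, j ≤ (w i : ℕ)} =>
      x.elim T (fun w => S (mx w.1))) (tri (d + 1) R) := by
  obtain ⟨η, hη, hηT, hηS⟩ := q7_exists_eta m j T S hT hS
  have hSsum : 0 ≤ ∑ q ∈ Finset.Ico j m, S q := by
    refine Finset.sum_nonneg fun i hi => ?_
    rw [Finset.mem_Ico] at hi
    exact (hS i hi.1 hi.2).le
  have hTR : T ≤ R := by linarith
  have hgap : ∀ q, j ≤ q → q < m → ∀ c c' : Fin m, c < c' →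
      k10_off j T S q c + S q ≤ k10_off j T S q c' := by
    intro q h1 h2 c c' hcc
    exact k10_gap hη hηS hanti hjS h1 h2 (Fin.lt_def.1 hcc)
  have hmxj : ∀ w : {w : Fin (d + 1) → Fin m // ∃ i, j ≤ (w i : ℕ)}, j ≤ mx w.1 := by
    rintro ⟨w, i, hi⟩
    exact hi.trans (k10_le_mx w i)
  have hmxm : ∀ w : {w : Fin (d + 1) → Fin m // ∃ i, j ≤ (w i : ℕ)}, mx w.1 < m :=
    fun w => k10_mx_lt w.1
  -- bounds of the last coordinate
  have hlo : ∀ (w : {w : Fin (d + 1) → Fin m // ∃ i, j ≤ (w i : ℕ)}) (y : Fin (d + 1) → ℝ),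
      y ∈ wcell w.1 (fun c => k10_off j T S (mx w.1) c) (S (mx w.1)) →
        k10_off j T S (mx w.1) (mx w.1) < y (Fin.last d) ∧
          y (Fin.last d) < k10_off j T S (mx w.1) (mx w.1) + S (mx w.1) := by
    intro w y hy
    have h1 := wcell_mem' hy (Fin.last d)
    rw [← mx_eq] at h1
    exact h1
  refine ⟨fun x => x.elim 1 (fun w => rnk w.1),
    fun x => x.elim 0 (fun w i => k10_off j T S (mx w.1) (w.1 i)),
    fun x => x.elim 0 (fun w => 1 + (mx w.1) * (d + 2) + (Tuple.sort w.1 (Fin.last d) : ℕ)),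
    ?_, ?_⟩
  · rintro (_ | w) y hy
    · exact tri_mono hTR ((k10_cell_one T y).1 hy)
    · have h1 : y ∈ wcell w.1 (fun c => k10_off j T S (mx w.1) c) (S (mx w.1)) := hy
      refine ⟨?_, wcell_strictMono (hgap _ (hmxj w) (hmxm w)) h1, ?_⟩
      · intro i
        have h2 := wcell_mem' h1 i
        exact lt_of_le_of_lt (k10_nonneg hη hηT hηS (hmxj w) (hmxm w)) h2.1
      · intro i
        have h3 := (hlo w _ h1).2
        have h4 : y i ≤ y (Fin.last d) :=
          (wcell_strictMono (hgap _ (hmxj w) (hmxm w)) h1).monotone (Fin.le_last i)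
        have h5 := k10_top (T := T) hη hηS (hmxj w) (hmxm w) le_rfl
        linarith
  · rintro (_ | w) (_ | w') hne hk y hy y' hy' hab
    · exact absurd rfl hne
    · have h0 : y' ∈ wcell w'.1 (fun c => k10_off j T S (mx w'.1) c) (S (mx w'.1)) := hy'
      have h1 := ((k10_cell_one T y).1 hy).2.2 (Fin.last d)
      have h2 := (hlo w' _ h0).1
      have h3 := k10_ge (T := T) (c := mx w'.1) hη hηS (hmxj w') (hmxm w') (hmxj w')
      linarith
    · simp only [Option.elim_some, Option.elim_none] at hk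
      omega
    · have h1 : y ∈ wcell w.1 (fun c => k10_off j T S (mx w.1) c) (S (mx w.1)) := hy
      have h2 : y' ∈ wcell w'.1 (fun c => k10_off j T S (mx w'.1) c) (S (mx w'.1)) := hy'
      simp only [Option.elim_some] at hk
      have hp : (Tuple.sort w.1 (Fin.last d) : ℕ) < d + 1 := Fin.is_lt _
      have hp' : (Tuple.sort w'.1 (Fin.last d) : ℕ) < d + 1 := Fin.is_lt _
      have hle : mx w.1 ≤ mx w'.1 := by
        by_contra hcon
        have h1 : (mx w'.1 + 1) * (d + 2) ≤ mx w.1 * (d + 2) :=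
          Nat.mul_le_mul_right _ (by omega)
        rw [Nat.add_mul, Nat.one_mul] at h1
        omega
      rcases hle.lt_or_eq with hlt | heq
      · have h3 := (hlo w _ h1).2
        have h4 := (hlo w' _ h2).1
        have h5 := k10_top (T := T) hη hηS (hmxj w) hlt (hmxm w').le
        rw [k10_off_eq T S (hmxj w') le_rfl] at h4
        linarith
      · rw [← heq] at h2
        refine wcell_order (hgap _ (hmxj w) (hmxm w)) h1 h2 hab heq ?_ ?_
        · rw [Fin.le_def]
          rw [heq] at hk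
          omega
        · intro hww
          exact hne (congrArg some (Subtype.ext hww))

end Vale.Agent.P209.MM
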