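import Vale.Agent.P209.MM.Q6
import Vale.Agent.P209.MM.Q7

namespace Vale.Agent.P209.MM

open Vale.Agent.P209 Vale.Agent.P209.Strong

/-! Q8. The numerical criterion. -/

/-- choice of the room `τ` -/
theorem q8_tau (N k K : ℕ) (L c R V ρ : ℝ) (hL : L < R) (hN : K < k → L ^ N + V < (R - ρ) ^ N) :
    ∃ τ : ℝ, 0 < τ ∧ L + c * τ < R ∧ (K < k → (L + c * τ) ^ N + V < (R - ρ) ^ N) := by
  have h1 : ∀ᶠ τ in nhdsWithin (0 : ℝ) (Set.Ioi 0), L + c * τ < R := by
    have ht : Filter.Tendsto (fun τ : ℝ => L + c * τ) (nhdsWithin 0 (Set.Ioi 0))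
        (nhds (L + c * 0)) :=
      tendsto_nhdsWithin_of_tendsto_nhds (Continuous.tendsto (by fun_prop) 0)
    exact ht.eventually_lt_const (by simpa using hL)
  have h2 : ∀ᶠ τ in nhdsWithin (0 : ℝ) (Set.Ioi 0),
      (K < k → (L + c * τ) ^ N + V < (R - ρ) ^ N) := by
    by_cases hk : K < k
    · have ht : Filter.Tendsto (fun τ : ℝ => (L + c * τ) ^ N + V) (nhdsWithin 0 (Set.Ioi 0))
          (nhds ((L + c * 0) ^ N + V)) :=
        tendsto_nhdsWithin_of_tendsto_nhds (Continuous.tendsto (by fun_prop) 0)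
      filter_upwards [ht.eventually_lt_const (by simpa using hN hk)] with τ hτ _
      exact hτ
    · exact Filter.Eventually.of_forall fun τ h => absurd h hk
  have h3 : ∀ᶠ τ in nhdsWithin (0 : ℝ) (Set.Ioi 0), 0 < τ := self_mem_nhdsWithin
  obtain ⟨τ, ha, hb, hc⟩ := (h1.and (h2.and h3)).exists
  exact ⟨τ, hc, ha, hb⟩

/-- the first `m ^ (n + 1) - j ^ (n + 1) + 1` balls in layers -/
theorem q8_layers (n m j : ℕ) (hj : j ≤ m) (r : ℕ → ℝ) (hr : Antitone r)
    (hr0 : ∀ i, 0 ≤ r i) (τ : ℝ) (hτ : 0 < τ) :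
    OPackIn n (fun i : Fin (m ^ (n + 1) - j ^ (n + 1) + 1) => r i)
      (tri (n + 1) (LL (n + 1) m j r + (m + 1) * τ)) := by
  obtain ⟨e, he, hemx⟩ := words_enum (n + 1) m j hj
  set T : ℝ := max (r 0) (j * r 1) + (j + 1) * τ with hT
  set S : ℕ → ℝ := fun q => r (q ^ (n + 1) - j ^ (n + 1) + 1) + τ with hS
  have hj0 : (0 : ℝ) ≤ j := Nat.cast_nonneg j
  have hpow : ∀ q q' : ℕ, q ≤ q' →
      q ^ (n + 1) - j ^ (n + 1) + 1 ≤ q' ^ (n + 1) - j ^ (n + 1) + 1 := by
    intro q q' h
    have : q ^ (n + 1) ≤ q' ^ (n + 1) := Nat.pow_le_pow_left h _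
    omega
  have hlay := layers_opack n m j hj T S
    (by
      have h1 : 0 ≤ max (r 0) (j * r 1) := le_trans (hr0 0) (le_max_left _ _)
      positivity)
    (fun q _ _ => by
      have := hr0 (q ^ (n + 1) - j ^ (n + 1) + 1)
      simp only [hS]
      linarith)
    (fun q q' _ hqq _ => by
      have := hr (hpow q q' hqq)
      simp only [hS]
      linarith)
    (fun _ => by
      have e1 : j ^ (n + 1) - j ^ (n + 1) + 1 = 1 := by omega
      have h2 := le_max_right (r 0) (j * r 1)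
      simp only [hS, hT, e1]
      nlinarith)
    (R := LL (n + 1) m j r + (m + 1) * τ)
    (by
      apply le_of_eq
      simp only [hS, hT, LL]
      rw [Finset.sum_add_distrib, Finset.sum_const, Nat.card_Ico, nsmul_eq_mul,
        Nat.cast_sub hj]
      ring)
  let g : Fin (m ^ (n + 1) - j ^ (n + 1) + 1) →
      Option {w : Fin (n + 1) → Fin m // ∃ i, j ≤ (w i : ℕ)} :=
    fun i => Fin.cases none (fun i' => some (e i')) i
  have hg : Function.Injective g := by
    intro a b
    refine Fin.cases ?_ (fun a' => ?_) a <;> refine Fin.cases ?_ (fun b' => ?_) b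
    · intro _; rfl
    · intro h; simp [g] at h
    · intro h; simp [g] at h
    · intro h
      simp only [g, Fin.cases_succ, Option.some.injEq] at h
      rw [he h]
  refine (hlay.comp hg).mono (fun i => ?_) (le_refl _)
  refine Fin.cases ?_ (fun i' => ?_) i
  · simp only [g, Fin.cases_zero, Option.elim_none, Fin.val_zero, hT]
    have h1 := le_max_left (r 0) (j * r 1)
    have h2 : 0 ≤ ((j : ℝ) + 1) * τ := by positivity
    linarith
  · simp only [g, Fin.cases_succ, Option.elim_some, Fin.val_succ, hS]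
    have h1 := hemx i'
    have h2 : r ((i' : ℕ) + 1) ≤ r ((mx (e i').1) ^ (n + 1) - j ^ (n + 1) + 1) :=
      hr (by omega)
    linarith

theorem mm_opack (n m j k : ℕ) (hj : j ≤ m) (R : ℝ) (r : ℕ → ℝ) (hr : Antitone r)
    (hr0 : ∀ i, 0 ≤ r i) (hL : LL (n + 1) m j r < R)
    (hvol : m ^ (n + 1) - j ^ (n + 1) + 1 < k → LL (n + 1) m j r ^ (n + 1) +
      ∑ i ∈ Finset.Ico (m ^ (n + 1) - j ^ (n + 1) + 2) k, r i ^ (n + 1) <
        (R - r (m ^ (n + 1) - j ^ (n + 1) + 1)) ^ (n + 1)) :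
    OPackIn n (fun i : Fin k => r i) (tri (n + 1) R) := by
  obtain ⟨K, hK⟩ : ∃ K, m ^ (n + 1) - j ^ (n + 1) + 1 = K := ⟨_, rfl⟩
  have hK2 : m ^ (n + 1) - j ^ (n + 1) + 2 = K + 1 := by omega
  rw [hK, hK2] at hvol
  obtain ⟨τ, hτ, h1, h2⟩ := q8_tau (n + 1) k K (LL (n + 1) m j r) (m + 1) R _ _ hL hvol
  have hlay := q8_layers n m j hj r hr hr0 τ hτ
  rw [hK] at hlay
  have hLL0 : r 0 ≤ LL (n + 1) m j r := by
    unfold LL
    have h3 := le_max_left (r 0) (j * r 1)
    have h4 : 0 ≤ ∑ q ∈ Finset.Ico j m, r (q ^ (n + 1) - j ^ (n + 1) + 1) :=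
      Finset.sum_nonneg fun q _ => hr0 _
    linarith
  have hmτ : 0 ≤ ((m : ℝ) + 1) * τ := by positivity
  rcases le_or_gt k K with hk | hk
  · exact (hlay.comp (Fin.castLE_injective hk)).mono (fun i => le_refl _) (tri_mono h1.le)
  · have hrec := mm_rec n (k - K) (fun i : Fin K => r i) (LL (n + 1) m j r + (m + 1) * τ)
      (fun i => r (K + i)) R (by linarith [hr0 0]) hlay
      (fun a b hab => hr (by omega)) (fun i => hr0 _) h1.le
      (fun _ => ⟨by
        have := hr (Nat.zero_le (K + 0))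
        linarith, by
        have e1 : ∑ i ∈ Finset.Ico 1 (k - K), r (K + i) ^ (n + 1) =
            ∑ i ∈ Finset.Ico (K + 1) k, r i ^ (n + 1) := by
          rw [Finset.sum_Ico_add (fun i => r i ^ (n + 1)) 1 (k - K) K]
          congr 1
          rw [Nat.add_comm 1 K, Nat.sub_add_cancel hk.le]
        rw [e1, Nat.add_zero]
        exact h2 hk⟩)
    let f : Fin k → Fin K ⊕ Fin (k - K) := fun i =>
      if h : (i : ℕ) < K then Sum.inl ⟨i, h⟩ else Sum.inr ⟨i - K, by omega⟩
    have hf : Function.Injective f := by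
      intro a b hab
      by_cases ha : (a : ℕ) < K <;> by_cases hb : (b : ℕ) < K
      · simp only [f, ha, hb, dif_pos, Sum.inl.injEq, Fin.mk.injEq] at hab
        exact Fin.ext hab
      · simp [f, ha, hb] at hab
      · simp [f, ha, hb] at hab
      · simp only [f, ha, hb, dif_neg, not_false_eq_true, Sum.inr.injEq, Fin.mk.injEq] at hab
        exact Fin.ext (by omega)
    have h5 := hrec.comp hf
    have e2 : (fun i : Fin k => Sum.elim (fun i : Fin K => r i)
        (fun i : Fin (k - K) => r (K + i)) (f i)) = fun i : Fin k => r i := by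
      funext i
      by_cases hi : (i : ℕ) < K
      · simp [f, hi]
      · simp only [f, hi, dif_neg, not_false_eq_true, Sum.elim_inr]
        congr 1
        omega
    rw [e2] at h5
    exact h5

end Vale.Agent.P209.MM
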