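import Vale.Agent.P209.MM.Q8
import Vale.Agent.P209.Bridge
import Vale.Agent.P209.Strong.E1b

namespace Vale.Agent.P209.MM

open Vale.Agent.P209 Vale.Agent.P209.Strong

/-! Q8b. Symplectic packings from the numerical criterion. -/

/-- An empty family is packed. -/
theorem q8b_empty {n : ℕ} {ι : Type} [IsEmpty ι] {S : Set (Fin n → ℂ)} (r : ι → ℝ) :
    Packs S r :=
  ⟨fun i => isEmptyElim i, fun i => isEmptyElim i, fun i => isEmptyElim i,
    fun i => isEmptyElim i⟩

/-- Meir-Moser type packing theorem for symplectic balls. -/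
theorem packs_mm (n m j k : ℕ) (hn : 1 ≤ n) (hj : j ≤ m) (R : ℝ) (r : ℕ → ℝ)
    (hr : Antitone r) (hr0 : ∀ i, 0 ≤ r i) (hpos : ∀ i, i < k → 0 < r i)
    (hL : LL n m j r < R)
    (hvol : m ^ n - j ^ n + 1 < k → LL n m j r ^ n +
      ∑ i ∈ Finset.Ico (m ^ n - j ^ n + 2) k, r i ^ n < (R - r (m ^ n - j ^ n + 1)) ^ n) :
    Packs (openBall n R) (fun i : Fin k => r i) := by
  obtain ⟨n', rfl⟩ : ∃ n', n = n' + 1 := ⟨n - 1, by omega⟩
  rcases Nat.eq_zero_or_pos k with rfl | hk
  · exact q8b_empty _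
  have h0 : r 0 ≤ LL (n' + 1) m j r := by
    unfold LL
    have h1 : 0 ≤ ∑ q ∈ Finset.Ico j m, r (q ^ (n' + 1) - j ^ (n' + 1) + 1) :=
      Finset.sum_nonneg fun i _ => hr0 _
    have h2 := le_max_left (r 0) (j * r 1)
    linarith
  have hLpos : 0 < LL (n' + 1) m j r := lt_of_lt_of_le (hpos 0 hk) h0
  have e1 : ∀ᶠ x in nhdsWithin R (Set.Iio R), LL (n' + 1) m j r < x :=
    (eventually_gt_nhds hL).filter_mono nhdsWithin_le_nhds
  have e2 : ∀ᶠ x in nhdsWithin R (Set.Iio R), (m ^ (n' + 1) - j ^ (n' + 1) + 1 < k →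
      LL (n' + 1) m j r ^ (n' + 1) +
      ∑ i ∈ Finset.Ico (m ^ (n' + 1) - j ^ (n' + 1) + 2) k, r i ^ (n' + 1) <
        (x - r (m ^ (n' + 1) - j ^ (n' + 1) + 1)) ^ (n' + 1)) := by
    by_cases hc : m ^ (n' + 1) - j ^ (n' + 1) + 1 < k
    · have h1 := hvol hc
      have hcont : Continuous fun x : ℝ =>
          (x - r (m ^ (n' + 1) - j ^ (n' + 1) + 1)) ^ (n' + 1) := by fun_prop
      have h2 := (hcont.tendsto R).eventually (eventually_gt_nhds h1)
      exact (h2.filter_mono nhdsWithin_le_nhds).mono fun x hx _ => hx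
    · exact Filter.Eventually.of_forall fun x hx => absurd hx hc
  have e3 : ∀ᶠ x in nhdsWithin R (Set.Iio R), x < R := self_mem_nhdsWithin
  obtain ⟨R', h1, h2, h3⟩ := (e1.and (e2.and e3)).exists
  have hR' : 0 < R' := hLpos.trans h1
  have hc1 : 1 < R / R' := by rw [one_lt_div hR']; exact h3
  have hc0 : 0 < R / R' := by linarith
  have hp := (mm_opack n' m j k hj R' r hr hr0 h1 h2).scale hc0
  have hRR : R / R' * R' = R := by field_simp
  rw [hRR] at hp
  refine bridge (by omega) hp.toTPack (fun i => hpos i i.2) fun i => ?_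
  have h4 := hpos i i.2
  nlinarith

/-- Every collection of balls of total volume less than `2 ^ (1 - n)` times the volume of the
ball packs it. The constant is optimal, by the two ball theorem. -/
theorem packs_volume (n k : ℕ) (hn : 1 ≤ n) (R : ℝ) (r : Fin k → ℝ) (hR : 0 < R)
    (hr : ∀ i, 0 < r i) (hvol : 2 ^ (n - 1) * ∑ i, r i ^ n < R ^ n) :
    Packs (openBall n R) r := by
  classical
  rcases Nat.eq_zero_or_pos k with rfl | hk
  · exact q8b_empty _
  set σ : Equiv.Perm (Fin k) := Tuple.sort (fun i => - r i) with hσ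
  have hmono : Monotone ((fun i => - r i) ∘ σ) := Tuple.monotone_sort _
  set s : ℕ → ℝ := fun i => if h : i < k then r (σ ⟨i, h⟩) else 0 with hs
  have hs1 : ∀ i (h : i < k), s i = r (σ ⟨i, h⟩) := fun i h => by simp [hs, h]
  have hs2 : ∀ i, ¬ i < k → s i = 0 := fun i h => by simp [hs, h]
  have hs0 : ∀ i, 0 ≤ s i := by
    intro i
    by_cases h : i < k
    · rw [hs1 i h]; exact (hr _).le
    · rw [hs2 i h]
  have hanti : Antitone s := by
    intro a b hab
    by_cases hb : b < k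
    · have ha : a < k := lt_of_le_of_lt hab hb
      rw [hs1 a ha, hs1 b hb]
      have := hmono (show (⟨a, ha⟩ : Fin k) ≤ ⟨b, hb⟩ from hab)
      simp only [Function.comp_apply] at this
      linarith
    · rw [hs2 b hb]; exact hs0 a
  have hspos : ∀ i, i < k → 0 < s i := fun i h => by rw [hs1 i h]; exact hr _
  have hsum : ∑ i ∈ Finset.range k, s i ^ n = ∑ i, r i ^ n := by
    rw [Finset.sum_range]
    rw [← Equiv.sum_comp σ (fun i => r i ^ n)]
    refine Finset.sum_congr rfl fun i _ => ?_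
    rw [hs1 i i.2]
  have hn0 : n ≠ 0 := by omega
  have hone : (1 : ℝ) ≤ 2 ^ (n - 1) := one_le_pow₀ (by norm_num)
  have hS : 2 ^ (n - 1) * ∑ i ∈ Finset.range k, s i ^ n < R ^ n := by rw [hsum]; exact hvol
  have hSnn : 0 ≤ ∑ i ∈ Finset.range k, s i ^ n := Finset.sum_nonneg fun i _ => pow_nonneg (hs0 i) _
  have hs0R : s 0 < R := by
    have h1 : s 0 ^ n ≤ ∑ i ∈ Finset.range k, s i ^ n :=
      Finset.single_le_sum (f := fun i => s i ^ n) (fun i _ => pow_nonneg (hs0 i) _)
        (Finset.mem_range.2 hk)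
    have h2 : s 0 ^ n < R ^ n := by nlinarith
    exact lt_of_pow_lt_pow_left₀ n hR.le h2
  have hLL : LL n 1 1 s = s 0 := by
    unfold LL
    simp only [Nat.cast_one, one_mul, Finset.Ico_self, Finset.sum_empty, add_zero]
    exact max_eq_left (hanti (by norm_num))
  have key : Packs (openBall n R) (fun i : Fin k => s i) := by
    refine packs_mm n 1 1 k hn le_rfl R s hanti hs0 hspos (by rw [hLL]; exact hs0R) ?_
    simp only [one_pow, Nat.sub_self, zero_add]
    intro hk2
    rw [hLL]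
    have h1 : s 1 ≤ s 0 := hanti (by norm_num)
    have h2 : ∑ i ∈ Finset.range k, s i ^ n = s 0 ^ n + s 1 ^ n + ∑ i ∈ Finset.Ico 2 k, s i ^ n := by
      rw [← Finset.sum_range_add_sum_Ico _ (show 2 ≤ k by omega)]
      rw [Finset.sum_range_succ, Finset.sum_range_one]
    have h3 := add_pow_le (hs0 1) (show 0 ≤ R - s 1 by linarith) n
    rw [add_sub_cancel] at h3
    have h4 : 2 ^ (n - 1) * ∑ i ∈ Finset.range k, s i ^ n <
        2 ^ (n - 1) * (s 1 ^ n + (R - s 1) ^ n) := lt_of_lt_of_le hS h3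
    have h5 := lt_of_mul_lt_mul_left h4 (by positivity)
    linarith
  have h6 := Packs.comp_inj key σ.symm σ.symm.injective
  have h7 : (fun i => s (σ.symm i : Fin k)) = r := by
    funext i
    rw [hs1 _ (σ.symm i).2]
    simp
  rw [h7] at h6
  exact h6

end Vale.Agent.P209.MM
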