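import Vale.Agent.P209.MM.Q1
import Vale.Agent.P209.Strong.K10

namespace Vale.Agent.P209.MM

open Vale.Agent.P209 Vale.Agent.P209.Strong

/-! Q9. The complement of an ordered packing is filled by small balls. -/

theorem opack_fill (d : ℕ) (hd : 1 ≤ d) (κ : Type) [Fintype κ] (s : κ → ℝ) (η : ℝ) (hη : 0 < η)
    (hηs : ∀ i, η ≤ s i) (h : OPackIn d s (tri (d + 1) 1)) (δ N : ℝ) (hδ : 0 < δ)
    (hδ1 : δ ≤ 1) (hN : 0 ≤ N) :
    ∃ R0 : ℝ, 0 < R0 ∧ ∀ R, R0 ≤ R → ∀ b : κ → ℝ, (∀ i, 0 ≤ b i) →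
      (∀ i, b i + η * R ≤ s i * R) →
      ∀ (ι : Type) [Fintype ι] (r : ι → ℝ) (J : Finset ι), (∀ i, 0 < r i ∧ r i ≤ 1) →
        (∀ i, i ∉ J → δ ≤ r i) → ∑ i ∈ J, r i ≤ N →
        ∑ i, b i ^ (d + 1) + ∑ i, r i ^ (d + 1) < R ^ (d + 1) →
        TPk (simplex (d + 1) R) (Sum.elim b r) := by
  have hle := fun i => h.le i (lt_of_lt_of_le hη (hηs i))
  obtain ⟨σ, c, key, hcell, hord⟩ := h
  have hc := fun i => cell_chart d hd (σ i) (c i) (s i)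
  choose Λ v hΛ hmem using hc
  refine cells_packs_key d hd κ Λ v s key hΛ hle ?_ ?_ η hη hηs δ N hδ hδ1 hN
  · intro i a ha
    exact (cum_tri a 1 one_pos).1 (hcell i ((hmem i a).1 ha))
  · intro i j hij hk a ha b hb hab
    exact k10_cum_last hab (hord i j hij hk _ ((hmem i a).1 ha) _ ((hmem j b).1 hb) (k10_cum hab))

end Vale.Agent.P209.MM
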