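import Vale.Agent.P209.MM.Q10
import Vale.Agent.P209.Strong.H4

namespace Vale.Agent.P209.MM

open Vale.Agent.P209 Vale.Agent.P209.Strong

/-! U1. Relative packing stability for a fixed number of big balls, for families. -/

theorem relative_fam (d : ℕ) (hd : 1 ≤ d) (M : ℕ) (γ ρ : ℝ) (hγ : 0 < γ) (hγ1 : γ < 1)
    (hρ : 0 < ρ) : ∃ ε : ℝ, 0 < ε ∧ ∀ (R : ℝ) (b : Fin M → ℝ), 0 < R →
      (∀ i, ρ * R ≤ b i) → OPackIn d b (tri (d + 1) ((1 - γ) * R)) →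
      ∀ (ι : Type) [Fintype ι] (r : ι → ℝ), (∀ i, 0 < r i ∧ r i ≤ ε * R) →
        ∑ i, b i ^ (d + 1) + ∑ i, r i ^ (d + 1) < R ^ (d + 1) →
        Packs (openBall (d + 1) R) (Sum.elim b r) := by
  obtain ⟨Nr, δ1, hδ0, hδ1, hmerge⟩ := merging (d + 1) (by omega)
  obtain ⟨R0, hR0, hun⟩ := opack_uniform d hd (Fin M) γ ρ hγ hγ1 hρ δ1 (2 * Nr) hδ0 hδ1
    (by positivity)
  refine ⟨1 / R0, by positivity, ?_⟩
  intro R b hR hb hpack ι _ r hr hvol
  have hs : 0 < R / R0 := by positivity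
  obtain ⟨s, hs'⟩ : ∃ s, s = R / R0 := ⟨_, rfl⟩
  rw [← hs'] at hs
  have hRs : s * R0 = R := by rw [hs']; field_simp
  have hRi : s⁻¹ * R = R0 := by rw [← hRs]; field_simp
  have hbpos : ∀ p, 0 < b p := fun p => (mul_pos hρ hR).trans_le (hb p)
  have hsi : 0 < s⁻¹ := inv_pos.2 hs
  refine hmerge R s (Fin M) b hR hs hbpos ?_ ι r (fun i => ⟨(hr i).1, ?_⟩) hvol
  · intro ι' _ r' J h1 h2 h3 h4
    have e1 : ∀ i, ρ * R0 ≤ s⁻¹ * b i := by
      intro i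
      have h := mul_le_mul_of_nonneg_left (hb i) hsi.le
      calc ρ * R0 = s⁻¹ * (ρ * R) := by rw [← hRi]; ring
        _ ≤ s⁻¹ * b i := h
    have e2 : OPackIn d (fun i => s⁻¹ * b i) (tri (d + 1) ((1 - γ) * R0)) := by
      have h := OPackIn.scale hsi hpack
      have e : s⁻¹ * ((1 - γ) * R) = (1 - γ) * R0 := by rw [← hRi]; ring
      rwa [e] at h
    have e3 : ∀ i, 0 < s⁻¹ * r' i ∧ s⁻¹ * r' i ≤ 1 := by
      intro i
      refine ⟨mul_pos hsi (h1 i).1, ?_⟩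
      rw [inv_mul_le_iff₀ hs, mul_one]
      exact (h1 i).2
    have e4 : ∀ i, i ∉ J → δ1 ≤ s⁻¹ * r' i := by
      intro i hi
      rw [le_inv_mul_iff₀ hs, mul_comm]
      exact h2 i hi
    have e5 : ∑ i ∈ J, s⁻¹ * r' i ≤ 2 * Nr := by
      rw [← Finset.mul_sum, inv_mul_le_iff₀ hs, mul_comm]
      exact h3
    have e6 : ∑ i, (s⁻¹ * b i) ^ (d + 1) + ∑ i, (s⁻¹ * r' i) ^ (d + 1) < R0 ^ (d + 1) := by
      have h5 := mul_lt_mul_of_pos_left h4 (pow_pos hsi (d + 1))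
      rw [mul_add, Finset.mul_sum, Finset.mul_sum, ← mul_pow, hRi] at h5
      simpa only [mul_pow] using h5
    have h6 := packs_of_TPk (hun R0 le_rfl (fun i => s⁻¹ * b i) e1 e2 ι' (fun i => s⁻¹ * r' i)
      J e3 e4 e5 e6)
    have h7 := Packs.scale hs h6
    rw [hRs] at h7
    have e7 : (fun i => s * Sum.elim (fun i => s⁻¹ * b i) (fun i => s⁻¹ * r' i) i)
        = Sum.elim b r' := by
      funext i
      rcases i with i | i
      · show s * (s⁻¹ * b i) = b i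
        field_simp
      · show s * (s⁻¹ * r' i) = r' i
        field_simp
    rwa [e7] at h7
  · refine (hr i).2.trans (le_of_eq ?_)
    rw [hs']
    ring

end Vale.Agent.P209.MM
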