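import Vale.Agent.P209.MM.U1

namespace Vale.Agent.P209.MM

open Vale.Agent.P209 Vale.Agent.P209.Strong

/-! U2. Relative packing stability for big balls of size at least `ρ * R`. -/

theorem relative_lvl (d : ℕ) (hd : 1 ≤ d) (γ ρ : ℝ) (hγ : 0 < γ) (hγ1 : γ < 1)
    (hρ : 0 < ρ) : ∃ ε : ℝ, 0 < ε ∧ ∀ (R : ℝ) (κ : Type) [Fintype κ] (b : κ → ℝ), 0 < R →
      (∀ i, ρ * R ≤ b i) → OPackIn d b (tri (d + 1) ((1 - γ) * R)) →
      ∀ (ι : Type) [Fintype ι] (r : ι → ℝ), (∀ i, 0 < r i ∧ r i ≤ ε * R) →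
        ∑ i, b i ^ (d + 1) + ∑ i, r i ^ (d + 1) < R ^ (d + 1) →
        Packs (openBall (d + 1) R) (Sum.elim b r) := by
  classical
  have hfam := fun M : ℕ => relative_fam d hd M γ ρ hγ hγ1 hρ
  choose e he hF using hfam
  set Nm : ℕ := ⌈1 / ρ ^ (d + 1)⌉₊ with hNm
  have hne : (Finset.range (Nm + 1)).Nonempty := ⟨0, by simp⟩
  set ε : ℝ := (Finset.range (Nm + 1)).inf' hne e with hε
  have hε0 : 0 < ε := by
    rw [hε, Finset.lt_inf'_iff]
    exact fun M _ => he M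
  refine ⟨ε, hε0, ?_⟩
  intro R κ _ b hR hb hO ι _ r hr hvol
  have hcard : Fintype.card κ ≤ Nm := by
    have h1 : (Fintype.card κ : ℝ) * (ρ * R) ^ (d + 1) ≤ ∑ i, b i ^ (d + 1) := by
      have h2 : ∑ _i : κ, (ρ * R) ^ (d + 1) ≤ ∑ i, b i ^ (d + 1) :=
        Finset.sum_le_sum fun i _ => pow_le_pow_left₀ (by positivity) (hb i) _
      rw [Finset.sum_const, Finset.card_univ, nsmul_eq_mul] at h2
      exact h2
    have h3 : 0 ≤ ∑ i, r i ^ (d + 1) := Finset.sum_nonneg fun i _ => pow_nonneg (hr i).1.le _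
    have hRn : 0 < R ^ (d + 1) := pow_pos hR _
    have hρn : 0 < ρ ^ (d + 1) := pow_pos hρ _
    have h4 : (Fintype.card κ : ℝ) * ρ ^ (d + 1) * R ^ (d + 1) < 1 * R ^ (d + 1) := by
      rw [mul_pow, ← mul_assoc] at h1
      linarith
    have h5 : (Fintype.card κ : ℝ) * ρ ^ (d + 1) < 1 := lt_of_mul_lt_mul_right h4 hRn.le
    have h6 : (Fintype.card κ : ℝ) < 1 / ρ ^ (d + 1) := by
      rw [lt_div_iff₀ hρn]
      exact h5
    have h7 : (Fintype.card κ : ℝ) ≤ (Nm : ℝ) := h6.le.trans (Nat.le_ceil _)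
    exact_mod_cast h7
  set M := Fintype.card κ with hM
  have hεM : ε ≤ e M := Finset.inf'_le _ (Finset.mem_range.2 (by omega))
  let f : Fin M ≃ κ := (Fintype.equivFin κ).symm
  have h1 := hF M R (fun i => b (f i)) hR (fun i => hb _) (hO.comp f.injective) ι r
    (fun i => ⟨(hr i).1, (hr i).2.trans (mul_le_mul_of_nonneg_right hεM hR.le)⟩)
    (by
      have h2 : ∑ i, b (f i) ^ (d + 1) = ∑ i, b i ^ (d + 1) :=
        Equiv.sum_comp f (fun i => b i ^ (d + 1))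
      rw [h2]
      exact hvol)
  have h3 := Packs.comp_inj h1 (Sum.map f.symm id : κ ⊕ ι → Fin M ⊕ ι)
    (Function.Injective.sumMap f.symm.injective Function.injective_id)
  have h4 : (fun k => Sum.elim (fun i => b (f i)) r ((Sum.map f.symm id : κ ⊕ ι → Fin M ⊕ ι) k)) =
      Sum.elim b r := by
    funext k
    rcases k with q | i
    · simp
    · simp
  rw [h4] at h3
  exact h3

end Vale.Agent.P209.MM
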