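import Mathlib

namespace Vale.Agent.P209.MM

/-! U3. Grouping items of small volume. -/

/-- Between `B` and `T` there is a set whose volume just exceeds `c`. -/
private theorem u3_between {ι : Type} [DecidableEq ι] (f : ι → ℝ) (w c : ℝ)
    (hf : ∀ i, 0 < f i ∧ f i ≤ w) (B : Finset ι) (hB : ∑ i ∈ B, f i < c) :
    ∀ T : Finset ι, B ⊆ T → c ≤ ∑ i ∈ T, f i →
      ∃ A, B ⊆ A ∧ A ⊆ T ∧ c ≤ ∑ i ∈ A, f i ∧ ∑ i ∈ A, f i ≤ c + w := by
  intro T
  induction T using Finset.strongInduction with
  | H T ih =>
    intro hBT hT
    by_cases h : ∃ i ∈ T, i ∉ B ∧ c ≤ ∑ j ∈ T.erase i, f j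
    · obtain ⟨i, hi, hiB, hc⟩ := h
      obtain ⟨A, h1, h2, h3, h4⟩ := ih (T.erase i) (Finset.erase_ssubset hi)
        (fun j hj => Finset.mem_erase.2 ⟨fun e => hiB (e ▸ hj), hBT hj⟩) hc
      exact ⟨A, h1, h2.trans (Finset.erase_subset _ _), h3, h4⟩
    · have hne : ∃ i ∈ T, i ∉ B := by
        by_contra hcon
        push Not at hcon
        have : T = B := Finset.Subset.antisymm hcon hBT
        rw [this] at hT
        exact absurd hT (not_le.2 hB)
      obtain ⟨i, hi, hiB⟩ := hne
      refine ⟨T, hBT, Finset.Subset.refl _, hT, ?_⟩
      have h1 : ¬ c ≤ ∑ j ∈ T.erase i, f j := fun hc => h ⟨i, hi, hiB, hc⟩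
      have h2 := Finset.add_sum_erase T f hi
      have h3 := (hf i).2
      push Not at h1
      linarith

private theorem u3_main {ι : Type} [Fintype ι] [DecidableEq ι] (f : ι → ℝ) (w W : ℝ)
    (hw : 0 < w) (hW : 4 * w ≤ W) (hf : ∀ i, 0 < f i ∧ f i ≤ w) (S₀ : Finset ι)
    (hs : W / 2 ≤ ∑ i ∈ S₀, f i) :
    ∀ Mi : Finset ι, Disjoint Mi S₀ →
    ∃ (N : ℕ) (g : ι → Option (Fin N)), (∀ i, i ∉ Mi ∪ S₀ → g i = none) ∧
      (∀ i ∈ Mi, g i ≠ none) ∧
      (∀ c : Fin N, W / 2 ≤ ∑ i with g i = some c, f i ∧
        ∑ i with g i = some c, f i ≤ W / 2 + w) ∧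
      (N : ℝ) * (W / 2) ≤ ∑ i ∈ Mi, f i + W / 2 + w := by
  intro Mi
  induction Mi using Finset.strongInduction with
  | H Mi ih =>
    intro hd
    by_cases hlt : ∑ i ∈ Mi, f i < W / 2
    · by_cases h0 : Mi = ∅
      · refine ⟨0, fun _ => none, fun _ _ => rfl, ?_, fun c => c.elim0, ?_⟩
        · intro i hi
          simp [h0] at hi
        · simp only [h0, Finset.sum_empty, Nat.cast_zero, zero_mul, zero_add]
          linarith
      · obtain ⟨A, h1, h2, h3, h4⟩ := u3_between f w (W / 2) hf Mi hlt (Mi ∪ S₀)
          Finset.subset_union_left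
          (hs.trans (Finset.sum_le_sum_of_subset_of_nonneg Finset.subset_union_right
            (fun i _ _ => (hf i).1.le)))
        refine ⟨1, fun i => if i ∈ A then some 0 else none, ?_, ?_, ?_, ?_⟩
        · intro i hi
          exact if_neg (fun hA => hi (h2 hA))
        · intro i hi
          simp [h1 hi]
        · intro c
          have hc : c = 0 := Subsingleton.elim _ _
          have hF : (Finset.univ.filter fun i => (if i ∈ A then some (0 : Fin 1) else none)
              = some c) = A := by
            ext i
            simp [hc]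
          rw [hF]
          exact ⟨h3, h4⟩
        · have : 0 ≤ ∑ i ∈ Mi, f i := Finset.sum_nonneg fun i _ => (hf i).1.le
          simp only [Nat.cast_one, one_mul]
          linarith
    · push Not at hlt
      obtain ⟨A, -, h2, h3, h4⟩ := u3_between f w (W / 2) hf ∅
        (by simp only [Finset.sum_empty]; linarith) Mi (Finset.empty_subset _) hlt
      have hAne : A.Nonempty := by
        rw [Finset.nonempty_iff_ne_empty]
        rintro rfl
        simp only [Finset.sum_empty] at h3
        linarith
      obtain ⟨N, g, g1, g2, g3, g4⟩ := ih (Mi \ A) (Finset.sdiff_ssubset h2 hAne)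
        (hd.mono_left Finset.sdiff_subset)
      have hAg : ∀ i ∈ A, g i = none := by
        intro i hi
        refine g1 i ?_
        intro hmem
        rcases Finset.mem_union.1 hmem with h | h
        · exact (Finset.mem_sdiff.1 h).2 hi
        · exact Finset.disjoint_left.1 hd (h2 hi) h
      refine ⟨N + 1, fun i => if i ∈ A then some (Fin.last N) else (g i).map Fin.castSucc,
        ?_, ?_, ?_, ?_⟩
      · intro i hi
        have hiA : i ∉ A := fun h => hi (Finset.mem_union_left _ (h2 h))
        have : g i = none := g1 i (fun h => hi (by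
          rcases Finset.mem_union.1 h with h | h
          · exact Finset.mem_union_left _ (Finset.sdiff_subset h)
          · exact Finset.mem_union_right _ h))
        simp [hiA, this]
      · intro i hi
        by_cases hiA : i ∈ A
        · simp [hiA]
        · have := g2 i (Finset.mem_sdiff.2 ⟨hi, hiA⟩)
          simp [hiA, this]
      · intro c
        induction c using Fin.lastCases with
        | last =>
          have hF : (Finset.univ.filter fun i => (if i ∈ A then some (Fin.last N)
              else (g i).map Fin.castSucc) = some (Fin.last N)) = A := by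
            ext i
            simp only [Finset.mem_filter, Finset.mem_univ, true_and]
            by_cases hiA : i ∈ A
            · simp [hiA]
            · simp only [hiA, if_false, iff_false]
              cases hg : g i with
              | none => simp
              | some d =>
                simp only [Option.map_some, Option.some.injEq]
                exact (Fin.castSucc_lt_last d).ne
          rw [hF]
          exact ⟨h3, h4⟩
        | cast c =>
          have hF : (Finset.univ.filter fun i => (if i ∈ A then some (Fin.last N)
              else (g i).map Fin.castSucc) = some c.castSucc)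
              = Finset.univ.filter fun i => g i = some c := by
            ext i
            simp only [Finset.mem_filter, Finset.mem_univ, true_and]
            by_cases hiA : i ∈ A
            · simp only [hiA, if_true, hAg i hiA, Option.some.injEq, reduceCtorEq, iff_false]
              exact (Fin.castSucc_lt_last c).ne'
            · simp only [hiA, if_false]
              cases hg : g i with
              | none => simp
              | some d => simp
          rw [hF]
          exact g3 c
      · have h5 := Finset.sum_sdiff (f := f) h2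
        push_cast
        linarith

/-- The items of `Mi` are distributed into groups of volume about `W / 2`; the last group may be
completed by other items. -/
theorem grouping {ι : Type} [Fintype ι] [DecidableEq ι] (f : ι → ℝ) (Mi : Finset ι) (w W : ℝ)
    (hw : 0 < w) (hW : 4 * w ≤ W) (hf : ∀ i, 0 < f i ∧ f i ≤ w)
    (hs : W / 2 ≤ ∑ i ∈ Miᶜ, f i) :
    ∃ (N : ℕ) (g : ι → Option (Fin N)), (∀ i ∈ Mi, g i ≠ none) ∧
      (∀ c : Fin N, W / 2 ≤ ∑ i with g i = some c, f i ∧
        ∑ i with g i = some c, f i ≤ W / 2 + w) ∧
      (N : ℝ) * (W / 2) ≤ ∑ i ∈ Mi, f i + W / 2 + w := by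
  obtain ⟨N, g, -, h2, h3, h4⟩ := u3_main f w W hw hW hf Miᶜ hs Mi disjoint_compl_right
  exact ⟨N, g, h2, h3, h4⟩

end Vale.Agent.P209.MM
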