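import Vale.Agent.P209.Strong.E1b

namespace Vale.Agent.P209.MM

open Vale.Agent.P209 Vale.Agent.P209.Strong

/-! U4. Replacing several virtual balls by groups of balls. -/

theorem packs_unmerge {n N : ℕ} {κ ι : Type} {R : ℝ} (b : κ → ℝ) (r : ι → ℝ)
    (g : ι → Option (Fin N)) (ρ : Fin N → ℝ)
    (h : Packs (openBall n R) (Sum.elim (Sum.elim b ρ) (fun i : {i // g i = none} => r i)))
    (hg : ∀ c, Packs (openBall n (ρ c)) (fun i : {i // g i = some c} => r i)) :
    Packs (openBall n R) (Sum.elim b r) := by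
  classical
  obtain ⟨F, hF, hFR, hFd⟩ := h
  choose G hG hGR hGd using hg
  have hsub : ∀ c (i : {i // g i = some c}),
      G c i '' closedBall n (r i) ⊆ closedBall n (ρ c) := fun c i =>
    (hGR c i).trans e1b_open_sub_closed
  have himg : ∀ c (i : {i // g i = some c}),
      (fun z => F (Sum.inl (Sum.inr c)) (G c i z)) '' closedBall n (r i) ⊆
      F (Sum.inl (Sum.inr c)) '' closedBall n (ρ c) := by
    rintro c i _ ⟨z, hz, rfl⟩
    exact ⟨_, hsub c i ⟨z, hz, rfl⟩, rfl⟩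
  have hinj : ∀ c, Set.InjOn (F (Sum.inl (Sum.inr c))) (closedBall n (ρ c)) := by
    intro c
    obtain ⟨U, hUo, hU, hFU, hFe, hFs⟩ := hF (Sum.inl (Sum.inr c))
    intro a ha b hb hab
    have h1 := hFe.injective (a₁ := ⟨a, hU ha⟩) (a₂ := ⟨b, hU hb⟩) hab
    exact congrArg Subtype.val h1
  have hex : ∀ i, ∃ φ : (Fin n → ℂ) → (Fin n → ℂ),
      (∀ hi : g i = none, φ = F (Sum.inr ⟨i, hi⟩)) ∧
      (∀ c, ∀ hi : g i = some c, φ = fun z => F (Sum.inl (Sum.inr c)) (G c ⟨i, hi⟩ z)) := by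
    intro i
    by_cases hgi : g i = none
    · exact ⟨F (Sum.inr ⟨i, hgi⟩), fun _ => rfl, fun c hc => by simp [hgi] at hc⟩
    · obtain ⟨c, hc⟩ := Option.ne_none_iff_exists'.1 hgi
      refine ⟨fun z => F (Sum.inl (Sum.inr c)) (G c ⟨i, hc⟩ z), fun h0 => absurd h0 hgi, ?_⟩
      intro c' hc'
      obtain rfl : c = c' := Option.some_injective _ (hc.symm.trans hc')
      rfl
  choose φ hφ0 hφ1 using hex
  refine ⟨Sum.elim (fun k => F (Sum.inl (Sum.inl k))) φ, ?_, ?_, ?_⟩
  · rintro (k | i)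
    · exact hF (Sum.inl (Sum.inl k))
    · simp only [Sum.elim_inr]
      rcases hgi : g i with _ | c
      · rw [hφ0 i hgi]
        exact hF (Sum.inr ⟨i, hgi⟩)
      · rw [hφ1 i c hgi]
        exact e1b_comp (hF (Sum.inl (Sum.inr c))) (hG c ⟨i, hgi⟩) (hsub c ⟨i, hgi⟩)
  · rintro (k | i)
    · exact hFR (Sum.inl (Sum.inl k))
    · simp only [Sum.elim_inr]
      rcases hgi : g i with _ | c
      · rw [hφ0 i hgi]
        exact hFR (Sum.inr ⟨i, hgi⟩)
      · rw [hφ1 i c hgi]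
        exact (himg c ⟨i, hgi⟩).trans (hFR (Sum.inl (Sum.inr c)))
  · have hki : ∀ k i, Disjoint (F (Sum.inl (Sum.inl k)) '' closedBall n (b k))
        (φ i '' closedBall n (r i)) := by
      intro k i
      rcases hgi : g i with _ | c
      · rw [hφ0 i hgi]
        exact hFd (i := Sum.inl (Sum.inl k)) (j := Sum.inr ⟨i, hgi⟩) (by simp)
      · rw [hφ1 i c hgi]
        exact (hFd (i := Sum.inl (Sum.inl k)) (j := Sum.inl (Sum.inr c)) (by simp)).mono_right
          (himg c ⟨i, hgi⟩)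
    rintro (k | i) (l | j) hij
    · exact hFd (i := Sum.inl (Sum.inl k)) (j := Sum.inl (Sum.inl l))
        (fun he => hij (by simpa using he))
    · exact hki k j
    · exact (hki l i).symm
    · have hij' : i ≠ j := fun he => hij (by rw [he])
      show Disjoint (φ i '' closedBall n (r i)) (φ j '' closedBall n (r j))
      rcases hgi : g i with _ | c
      · rcases hgj : g j with _ | d
        · rw [hφ0 i hgi, hφ0 j hgj]
          exact hFd (i := Sum.inr ⟨i, hgi⟩) (j := Sum.inr ⟨j, hgj⟩) (by simpa using hij')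
        · rw [hφ0 i hgi, hφ1 j d hgj]
          exact (hFd (i := Sum.inr ⟨i, hgi⟩) (j := Sum.inl (Sum.inr d)) (by simp)).mono_right
            (himg d ⟨j, hgj⟩)
      · rcases hgj : g j with _ | d
        · rw [hφ1 i c hgi, hφ0 j hgj]
          exact (hFd (i := Sum.inl (Sum.inr c)) (j := Sum.inr ⟨j, hgj⟩) (by simp)).mono_left
            (himg c ⟨i, hgi⟩)
        · by_cases hcd : c = d
          · subst hcd
            rw [hφ1 i c hgi, hφ1 j c hgj, Set.disjoint_left]
            rintro _ ⟨z, hz, rfl⟩ ⟨w, hw, hzw⟩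
            have h1 : G c ⟨j, hgj⟩ w = G c ⟨i, hgi⟩ z :=
              hinj c (hsub c ⟨j, hgj⟩ ⟨w, hw, rfl⟩) (hsub c ⟨i, hgi⟩ ⟨z, hz, rfl⟩) hzw
            have h2 : (⟨i, hgi⟩ : {i // g i = some c}) ≠ ⟨j, hgj⟩ :=
              fun h => hij' (congrArg Subtype.val h)
            exact Set.disjoint_left.1 (hGd c h2) ⟨z, hz, rfl⟩ ⟨w, hw, h1⟩
          · rw [hφ1 i c hgi, hφ1 j d hgj]
            exact ((hFd (i := Sum.inl (Sum.inr c)) (j := Sum.inl (Sum.inr d))
              (by simpa using hcd)).mono_left (himg c ⟨i, hgi⟩)).mono_right (himg d ⟨j, hgj⟩)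

end Vale.Agent.P209.MM
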