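import Vale.Agent.P209.MM.Q6
import Vale.Agent.P209.Bridge
import Vale.Agent.P209.Strong.E1b

namespace Vale.Agent.P209.MM

open Vale.Agent.P209 Vale.Agent.P209.Strong

/-! U5. One level: constants, the case of small total volume, containers. -/

theorem level_const (n : ℕ) (hn : 1 ≤ n) (γ : ℝ) (hγ : 0 < γ) (hγ1 : γ < 1) :
    ∃ c0 lam : ℝ, 0 < c0 ∧ 0 < lam ∧ lam ≤ γ / 4 ∧ ∀ l, 0 ≤ l → l ≤ lam →
      (1 - γ) ^ n + 8 * c0 ≤ (1 - γ / 2 - l) ^ n ∧ l ^ n ≤ c0 := by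
  have hn0 : n ≠ 0 := by omega
  have hlt : (1 - γ) ^ n < (1 - 3 * γ / 4) ^ n :=
    pow_lt_pow_left₀ (by linarith) (by linarith) hn0
  refine ⟨((1 - 3 * γ / 4) ^ n - (1 - γ) ^ n) / 8,
    min (γ / 4) (min 1 (((1 - 3 * γ / 4) ^ n - (1 - γ) ^ n) / 8)), by linarith, ?_,
    min_le_left _ _, ?_⟩
  · exact lt_min (by linarith) (lt_min one_pos (by linarith))
  · intro l hl hll
    have h1 : l ≤ γ / 4 := hll.trans (min_le_left _ _)
    have h2 : l ≤ 1 := hll.trans ((min_le_right _ _).trans (min_le_left _ _))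
    have h3 : l ≤ ((1 - 3 * γ / 4) ^ n - (1 - γ) ^ n) / 8 :=
      hll.trans ((min_le_right _ _).trans (min_le_right _ _))
    constructor
    · have h4 : (1 - 3 * γ / 4) ^ n ≤ (1 - γ / 2 - l) ^ n :=
        pow_le_pow_left₀ (by linarith) (by linarith) n
      linarith
    · exact (pow_le_of_le_one hl h2 hn0).trans h3

/-- a decreasing enumeration -/
theorem u5_sort (ι : Type) [Fintype ι] (r : ι → ℝ) (hr : ∀ i, 0 < r i) :
    ∃ (k : ℕ) (e : ι ≃ Fin k) (x : ℕ → ℝ), Antitone x ∧ (∀ i, 0 ≤ x i) ∧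
      ∀ i, x (e i : ℕ) = r i := by
  classical
  set f : Fin (Fintype.card ι) → ℝ := fun j => -r ((Fintype.equivFin ι).symm j) with hf
  have hmono : Monotone (f ∘ Tuple.sort f) := Tuple.monotone_sort f
  have hf0 : ∀ j, 0 ≤ -f j := fun j => by
    have h1 := hr ((Fintype.equivFin ι).symm j)
    have h2 : f j = -r ((Fintype.equivFin ι).symm j) := rfl
    linarith
  refine ⟨Fintype.card ι, (Fintype.equivFin ι).trans (Tuple.sort f).symm,
    fun n => if h : n < Fintype.card ι then -f (Tuple.sort f ⟨n, h⟩) else 0, ?_, ?_, ?_⟩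
  · intro m n hmn
    show (if h : n < Fintype.card ι then -f (Tuple.sort f ⟨n, h⟩) else 0) ≤
      (if h : m < Fintype.card ι then -f (Tuple.sort f ⟨m, h⟩) else 0)
    by_cases hn : n < Fintype.card ι
    · rw [dif_pos hn, dif_pos (lt_of_le_of_lt hmn hn)]
      have h1 : (⟨m, lt_of_le_of_lt hmn hn⟩ : Fin (Fintype.card ι)) ≤ ⟨n, hn⟩ := hmn
      exact neg_le_neg (hmono h1)
    · rw [dif_neg hn]
      split_ifs
      · exact hf0 _
      · exact le_rfl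
  · intro n
    show 0 ≤ (if h : n < Fintype.card ι then -f (Tuple.sort f ⟨n, h⟩) else 0)
    split_ifs
    · exact hf0 _
    · exact le_rfl
  · intro i
    have h1 : ((((Fintype.equivFin ι).trans (Tuple.sort f).symm) i : Fin (Fintype.card ι)) : ℕ) <
        Fintype.card ι := Fin.isLt _
    show (if h : ((((Fintype.equivFin ι).trans (Tuple.sort f).symm) i : Fin (Fintype.card ι)) : ℕ)
      < Fintype.card ι then -f (Tuple.sort f ⟨_, h⟩) else 0) = r i
    rw [dif_pos h1]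
    simp only [Fin.eta, Equiv.trans_apply, Equiv.apply_symm_apply, hf, Equiv.symm_apply_apply,
      neg_neg]

/-- the volume condition of the packing theorem on one level -/
theorem u5_vol (d : ℕ) (γ c0 l : ℝ) (hγ1 : γ < 1) (hc0 : 0 < c0) (hl1 : l ≤ γ / 4)
    (hγ : 0 < γ) (hc : (1 - γ) ^ (d + 1) + 8 * c0 ≤ (1 - γ / 2 - l) ^ (d + 1)) (R x0 s : ℝ)
    (hR : 0 < R) (hx : x0 ≤ l * R) (hs : s ≤ 4 * c0 * R ^ (d + 1)) :
    x0 < (1 - γ / 2) * R ∧
      ((1 - γ) * R) ^ (d + 1) + s < ((1 - γ / 2) * R - x0) ^ (d + 1) := by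
  have hg : 0 < 1 - γ / 2 - l := by linarith
  have hRd : 0 < R ^ (d + 1) := pow_pos hR _
  constructor
  · have h1 : 0 < (1 - γ / 2 - l) * R := mul_pos hg hR
    nlinarith
  · have h1 : (1 - γ / 2 - l) * R ≤ (1 - γ / 2) * R - x0 := by nlinarith
    have h2 : ((1 - γ / 2 - l) * R) ^ (d + 1) ≤ ((1 - γ / 2) * R - x0) ^ (d + 1) :=
      pow_le_pow_left₀ (mul_pos hg hR).le h1 _
    rw [mul_pow] at h2
    have h3 : ((1 - γ) ^ (d + 1) + 8 * c0) * R ^ (d + 1) ≤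
        (1 - γ / 2 - l) ^ (d + 1) * R ^ (d + 1) := mul_le_mul_of_nonneg_right hc hRd.le
    rw [mul_pow]
    have h4 : 0 < c0 * R ^ (d + 1) := mul_pos hc0 hRd
    have h5 : ((1 - γ) ^ (d + 1) + 8 * c0) * R ^ (d + 1) =
        (1 - γ) ^ (d + 1) * R ^ (d + 1) + 8 * (c0 * R ^ (d + 1)) := by ring
    have h6 : 4 * c0 * R ^ (d + 1) = 4 * (c0 * R ^ (d + 1)) := by ring
    linarith

/-- If the small balls have small total volume then all balls are packed by simplices. -/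
theorem level_lossy (d : ℕ) (γ c0 l : ℝ) (hγ : 0 < γ) (hγ1 : γ < 1) (hc0 : 0 < c0)
    (hl : 0 ≤ l) (hl1 : l ≤ γ / 4) (hc : (1 - γ) ^ (d + 1) + 8 * c0 ≤ (1 - γ / 2 - l) ^ (d + 1))
    (κ ι : Type) [Fintype κ] [Fintype ι] (b : κ → ℝ) (r : ι → ℝ) (R : ℝ) (hR : 0 < R)
    (hb : ∀ i, 0 < b i) (hr : ∀ i, 0 < r i ∧ r i ≤ l * R)
    (hB : OPackIn d b (tri (d + 1) ((1 - γ) * R)))
    (hv : ∑ i, r i ^ (d + 1) ≤ 2 * c0 * R ^ (d + 1)) :
    Packs (openBall (d + 1) R) (Sum.elim b r) := by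
  obtain ⟨k, e, x, hx, hx0, hxe⟩ := u5_sort ι r (fun i => (hr i).1)
  have hg : 0 < 1 - γ / 2 := by linarith
  have hRd : 0 < R ^ (d + 1) := pow_pos hR _
  have hsum : ∑ i ∈ Finset.Ico 1 k, x i ^ (d + 1) ≤ 4 * c0 * R ^ (d + 1) := by
    have h1 : ∑ i, r i ^ (d + 1) = ∑ i ∈ Finset.range k, x i ^ (d + 1) := by
      rw [← Fin.sum_univ_eq_sum_range (fun i => x i ^ (d + 1)) k, ← Equiv.sum_comp e]
      exact Finset.sum_congr rfl fun i _ => by rw [hxe]
    have h2 : ∑ i ∈ Finset.Ico 1 k, x i ^ (d + 1) ≤ ∑ i ∈ Finset.range k, x i ^ (d + 1) := by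
      refine Finset.sum_le_sum_of_subset_of_nonneg ?_ fun i _ _ => pow_nonneg (hx0 i) _
      intro i hi
      exact Finset.mem_range.2 (Finset.mem_Ico.1 hi).2
    have h3 : 0 < c0 * R ^ (d + 1) := mul_pos hc0 hRd
    have h4 : 4 * c0 * R ^ (d + 1) = 4 * (c0 * R ^ (d + 1)) := by ring
    have h5 : 2 * c0 * R ^ (d + 1) = 2 * (c0 * R ^ (d + 1)) := by ring
    linarith
  have hP : OPackIn d (Sum.elim b (fun i : Fin k => x i)) (tri (d + 1) ((1 - γ / 2) * R)) := by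
    refine mm_rec d k b ((1 - γ) * R) x ((1 - γ / 2) * R)
      (mul_nonneg (by linarith) hR.le) hB hx hx0 (by nlinarith) fun hk => ?_
    refine u5_vol d γ c0 l hγ1 hc0 hl1 hγ hc R (x 0) _ hR ?_ hsum
    have h1 := (hr (e.symm ⟨0, hk⟩)).2
    rw [← hxe, Equiv.apply_symm_apply] at h1
    exact h1
  have hf : Function.Injective (Sum.map id e : κ ⊕ ι → κ ⊕ Fin k) :=
    Function.Injective.sumMap Function.injective_id e.injective
  have hP2 : OPackIn d (Sum.elim b r) (tri (d + 1) ((1 - γ / 2) * R)) := by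
    refine (hP.comp hf).mono ?_ subset_rfl
    rintro (a | a)
    · exact le_rfl
    · show r a ≤ x (e a : ℕ)
      rw [hxe]
  have hcc : 1 < (1 - γ / 2)⁻¹ := (one_lt_inv₀ hg).2 (by linarith)
  have hP3 := (OPackIn.scale (inv_pos.2 hg) hP2).toTPack
  rw [← mul_assoc, inv_mul_cancel₀ hg.ne', one_mul] at hP3
  have hpos : ∀ i, 0 < Sum.elim b r i := by
    rintro (a | a)
    · exact hb a
    · exact (hr a).1
  refine bridge (Nat.succ_pos d) hP3 hpos fun i => ?_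
  have := hpos i
  nlinarith

/-- Containers of size at most `l * R` can be added to the big balls. -/
theorem level_cont (d : ℕ) (γ c0 l : ℝ) (hγ : 0 < γ) (hγ1 : γ < 1) (hc0 : 0 < c0)
    (hl : 0 ≤ l) (hl1 : l ≤ γ / 4) (hc : (1 - γ) ^ (d + 1) + 8 * c0 ≤ (1 - γ / 2 - l) ^ (d + 1))
    (κ : Type) [Fintype κ] (b : κ → ℝ) (R : ℝ) (hR : 0 < R)
    (hB : OPackIn d b (tri (d + 1) ((1 - γ) * R))) (N : ℕ)
    (hN : (N : ℝ) * (l * R) ^ (d + 1) ≤ 4 * c0 * R ^ (d + 1)) (ρ : Fin N → ℝ)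
    (hρ : ∀ c, ρ c ≤ l * R) :
    OPackIn d (Sum.elim b ρ) (tri (d + 1) ((1 - γ / 2) * R)) := by
  have hlR : 0 ≤ l * R := mul_nonneg hl hR.le
  have hP : OPackIn d (Sum.elim b (fun _ : Fin N => l * R)) (tri (d + 1) ((1 - γ / 2) * R)) := by
    refine mm_rec d N b ((1 - γ) * R) (fun _ => l * R) ((1 - γ / 2) * R)
      (mul_nonneg (by linarith) hR.le) hB antitone_const (fun _ => hlR) (by nlinarith)
      fun hk => ?_
    refine u5_vol d γ c0 l hγ1 hc0 hl1 hγ hc R (l * R) _ hR le_rfl (le_trans ?_ hN)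
    rw [Finset.sum_const, Nat.card_Ico, nsmul_eq_mul]
    refine mul_le_mul_of_nonneg_right ?_ (pow_nonneg hlR _)
    exact_mod_cast Nat.sub_le N 1
  refine hP.mono ?_ subset_rfl
  rintro (a | a)
  · exact le_rfl
  · exact hρ a

end Vale.Agent.P209.MM
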