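import Vale.Agent.P209.MM.U2
import Vale.Agent.P209.MM.U3
import Vale.Agent.P209.MM.U4
import Vale.Agent.P209.MM.U5
import Vale.Agent.P209.Strong.E1

namespace Vale.Agent.P209.MM

open Vale.Agent.P209 Vale.Agent.P209.Strong

/-! U6. One level: balls of intermediate size have small total volume. -/

/-- Sum over the fibres of a map to `Option (Fin N)`. -/
theorem u6_sum_fib {ι : Type} [Fintype ι] {N : ℕ} (g : ι → Option (Fin N)) (f : ι → ℝ) :
    ∑ i, f i = ∑ i with g i = none, f i + ∑ c : Fin N, ∑ i with g i = some c, f i := by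
  classical
  rw [← Finset.sum_fiberwise Finset.univ g f, Fintype.sum_option]

theorem u6_sub {ι : Type} [Fintype ι] (p : ι → Prop) [DecidablePred p] (f : ι → ℝ) :
    ∑ i : {i // p i}, f i = ∑ i with p i, f i := by
  rw [← Finset.sum_subtype_eq_sum_filter, Finset.subtype_univ]

theorem level_step (d : ℕ) (hd : 1 ≤ d) (γ : ℝ) (hγ : 0 < γ) (hγ1 : γ < 1) :
    ∃ c0 ηs : ℝ, 0 < c0 ∧ 0 < ηs ∧ ∀ η, 0 < η → η ≤ ηs → ∃ θ : ℝ, 0 < θ ∧ θ ≤ η ∧
      ∀ (κ ι : Type) [Fintype κ] [Fintype ι] (b : κ → ℝ) (r : ι → ℝ) (R : ℝ), 0 < R →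
        (∀ i, η * R < b i) → (∀ i, 0 < r i ∧ r i ≤ η * R) →
        OPackIn d b (tri (d + 1) ((1 - γ) * R)) →
        ∑ i with θ * R < r i, r i ^ (d + 1) ≤ c0 * R ^ (d + 1) →
        ∑ i, b i ^ (d + 1) + ∑ i, r i ^ (d + 1) < R ^ (d + 1) →
        Packs (openBall (d + 1) R) (Sum.elim b r) := by
  obtain ⟨c0, lam, hc0, hlam, hlamγ, hL⟩ := level_const (d + 1) (by omega) γ hγ hγ1
  obtain ⟨eA, heA, hstr⟩ := strong_stability (d + 1) (by omega)
  set e : ℝ := min eA 1 with he
  have he0 : 0 < e := lt_min heA one_pos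
  have he1 : e ≤ 1 := min_le_right _ _
  have heA' : e ≤ eA := min_le_left _ _
  refine ⟨c0, lam * e / 2, hc0, by positivity, fun η hη hηs => ?_⟩
  set l : ℝ := 2 * η / e with hl
  have hl0 : 0 < l := by positivity
  have hle : l * e = 2 * η := by rw [hl]; field_simp
  have hll : l ≤ lam := by
    rw [hl, div_le_iff₀ he0]; linarith
  have hl2 : 2 * η ≤ l := by
    rw [← hle]; nlinarith
  have hlγ : l ≤ γ / 4 := hll.trans hlamγ
  obtain ⟨hc, hln⟩ := hL l hl0.le hll
  obtain ⟨e2, he2, hrel⟩ := relative_lvl d hd (γ / 2) η (by positivity) (by linarith) hη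
  refine ⟨min η e2, lt_min hη he2, min_le_left _ _, ?_⟩
  intro κ ι _ _ b r R hR hb hr hB hMi hvol
  classical
  have hRn : 0 < R ^ (d + 1) := by positivity
  by_cases hcase : ∑ i, r i ^ (d + 1) ≤ 2 * c0 * R ^ (d + 1)
  · refine level_lossy d γ c0 l hγ hγ1 hc0 hl0.le hlγ hc κ ι b r R hR
      (fun i => lt_trans (by positivity) (hb i)) (fun i => ⟨(hr i).1, (hr i).2.trans ?_⟩) hB hcase
    exact mul_le_mul_of_nonneg_right (by linarith) hR.le
  · push Not at hcase
    set W : ℝ := (l * R) ^ (d + 1) with hW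
    set w : ℝ := (η * R) ^ (d + 1) with hw
    have hw0 : 0 < w := by positivity
    have h4 : 4 * w ≤ W := by
      have e1 : (2 * (η * R)) ^ (d + 1) ≤ (l * R) ^ (d + 1) :=
        pow_le_pow_left₀ (by positivity) (by nlinarith) _
      rw [mul_pow] at e1
      have e3 : (2 : ℝ) ^ 2 ≤ 2 ^ (d + 1) := pow_le_pow_right₀ (by norm_num) (by omega)
      have e4 := mul_le_mul_of_nonneg_right e3 hw0.le
      norm_num at e4
      linarith
    have hWc : W ≤ c0 * R ^ (d + 1) := by
      rw [hW, mul_pow]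
      exact mul_le_mul_of_nonneg_right hln hRn.le
    set Mi : Finset ι := Finset.univ.filter (fun i => min η e2 * R < r i) with hMidef
    have hsum : ∑ i ∈ Mi, r i ^ (d + 1) + ∑ i ∈ Miᶜ, r i ^ (d + 1) = ∑ i, r i ^ (d + 1) :=
      Finset.sum_add_sum_compl Mi _
    have hs : W / 2 ≤ ∑ i ∈ Miᶜ, r i ^ (d + 1) := by
      have : 0 < W := by positivity
      linarith
    obtain ⟨N, g, hg1, hg2, hg3⟩ := grouping (fun i => r i ^ (d + 1)) Mi w W hw0 h4
      (fun i => ⟨pow_pos (hr i).1 _, pow_le_pow_left₀ (hr i).1.le (hr i).2 _⟩) hs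
    -- the extra volume
    set V : ℝ := ∑ i, b i ^ (d + 1) + ∑ i, r i ^ (d + 1) with hV
    set δ : ℝ := min w ((R ^ (d + 1) - V) / (2 * ((N : ℝ) + 1))) with hδ
    have hgap : 0 < R ^ (d + 1) - V := by linarith
    have hNp : 0 < 2 * ((N : ℝ) + 1) := by positivity
    have hδ0 : 0 < δ := lt_min hw0 (by positivity)
    have hδw : δ ≤ w := min_le_left _ _
    have hδN : (N : ℝ) * δ < R ^ (d + 1) - V := by
      have e1 : δ ≤ (R ^ (d + 1) - V) / (2 * ((N : ℝ) + 1)) := min_le_right _ _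
      have e2 : δ * (2 * ((N : ℝ) + 1)) ≤ R ^ (d + 1) - V := (le_div_iff₀ hNp).1 e1
      have e3 : 0 ≤ (N : ℝ) * δ := by positivity
      linarith
    set vol : Fin N → ℝ := fun c => ∑ i with g i = some c, r i ^ (d + 1) with hvoldef
    have hvol0 : ∀ c, 0 ≤ vol c := fun c => Finset.sum_nonneg fun i _ => (pow_pos (hr i).1 _).le
    set ρ : Fin N → ℝ := fun c => (vol c + δ) ^ (((d + 1 : ℕ) : ℝ)⁻¹) with hρdef
    have hρn : ∀ c, ρ c ^ (d + 1) = vol c + δ := fun c =>
      Real.rpow_inv_natCast_pow (by linarith [hvol0 c]) (by omega)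
    have hρ0 : ∀ c, 0 < ρ c := fun c => Real.rpow_pos_of_pos (by linarith [hvol0 c]) _
    have hρl : ∀ c, ρ c ≤ l * R := by
      intro c
      refine le_of_pow_le_pow_left₀ (Nat.succ_ne_zero d) (by positivity) ?_
      show ρ c ^ (d + 1) ≤ (l * R) ^ (d + 1)
      rw [hρn c]
      have := (hg2 c).2
      simp only [hvoldef]
      linarith
    have hρh : ∀ c, l * R / 2 ≤ ρ c := by
      intro c
      refine le_of_pow_le_pow_left₀ (Nat.succ_ne_zero d) (hρ0 c).le ?_
      show (l * R / 2) ^ (d + 1) ≤ ρ c ^ (d + 1)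
      rw [hρn c, div_pow]
      have e1 := (hg2 c).1
      have e2 : (2 : ℝ) ^ 1 ≤ 2 ^ (d + 1) := pow_le_pow_right₀ (by norm_num) (by omega)
      have e3 : (l * R) ^ (d + 1) / 2 ^ (d + 1) ≤ (l * R) ^ (d + 1) / 2 := by
        refine div_le_div_of_nonneg_left (by positivity) (by norm_num) ?_
        simpa using e2
      simp only [hvoldef]
      linarith
    have hNW : (N : ℝ) * (l * R) ^ (d + 1) ≤ 4 * c0 * R ^ (d + 1) := by
      have e1 : ∑ i ∈ Mi, r i ^ (d + 1) ≤ c0 * R ^ (d + 1) := hMi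
      have e2 : (N : ℝ) * (W / 2) ≤ ∑ i ∈ Mi, r i ^ (d + 1) + W / 2 + w := hg3
      have e3 : (N : ℝ) * W = 2 * ((N : ℝ) * (W / 2)) := by ring
      rw [← hW, e3]
      linarith
    have hB' := level_cont d γ c0 l hγ hγ1 hc0 hl0.le hlγ hc κ b R hR hB N hNW ρ hρl
    have hle2 : l * R / 2 = η * R / e := by rw [hl]; field_simp
    have hηρ : ∀ c, η * R ≤ ρ c := by
      intro c
      refine le_trans ?_ (hρh c)
      nlinarith
    have hpart := u6_sum_fib g (fun i => r i ^ (d + 1))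
    have h1 := hrel R (κ ⊕ Fin N) (Sum.elim b ρ) hR
      (by
        rintro (i | c)
        · exact (hb i).le
        · exact hηρ c) hB' {i // g i = none} (fun i => r i)
      (by
        intro i
        refine ⟨(hr i).1, ?_⟩
        have hi : (i : ι) ∉ Mi := fun h => hg1 i h i.2
        rw [hMidef, Finset.mem_filter] at hi
        push Not at hi
        exact (hi (Finset.mem_univ _)).trans
          (mul_le_mul_of_nonneg_right (min_le_right _ _) hR.le))
      (by
        rw [Fintype.sum_sum_type]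
        simp only [Sum.elim_inl, Sum.elim_inr]
        rw [u6_sub (fun i => g i = none) (fun i => r i ^ (d + 1))]
        have e1 : ∑ c, ρ c ^ (d + 1) = ∑ c, vol c + (N : ℝ) * δ := by
          rw [Finset.sum_congr rfl fun c _ => hρn c, Finset.sum_add_distrib, Finset.sum_const,
            Finset.card_univ, Fintype.card_fin, nsmul_eq_mul]
        rw [e1]
        have e2 : V = ∑ i, b i ^ (d + 1) + (∑ i with g i = none, r i ^ (d + 1) + ∑ c, vol c) := by
          rw [hV, hpart]
        linarith)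
    refine packs_unmerge b r g ρ h1 fun c => ?_
    refine hstr {i // g i = some c} (ρ c) (fun i => r i) (hρ0 c) (fun i => ⟨(hr i).1, ?_⟩) ?_
    · refine (hr i).2.trans ?_
      have e1 : η * R = e * (l * R / 2) := by rw [hle2]; field_simp
      rw [e1]
      calc e * (l * R / 2) ≤ e * ρ c := mul_le_mul_of_nonneg_left (hρh c) he0.le
        _ ≤ eA * ρ c := mul_le_mul_of_nonneg_right heA' (hρ0 c).le
    · rw [u6_sub (fun i => g i = some c) (fun i => r i ^ (d + 1)), hρn c]
      show vol c < vol c + δ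
      linarith

end Vale.Agent.P209.MM
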