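import Vale.Agent.P209.MM.U6

namespace Vale.Agent.P209.MM

open Vale.Agent.P209 Vale.Agent.P209.Strong

/-! U7. Relative packing stability, uniformly in the number of big balls. -/

/-- One of the levels carries little volume. -/
theorem u7_pigeon {T : Type} [Fintype T] (f : T → ℝ) (hf : ∀ t, 0 ≤ f t) (S : ℕ → Finset T)
    (J : ℕ) (hS : ∀ j < J, ∀ k < J, j ≠ k → Disjoint (S j) (S k)) {c V : ℝ}
    (hV : ∑ t, f t < V) (hJ : V ≤ J * c) : ∃ j < J, ∑ t ∈ S j, f t ≤ c := by
  classical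
  by_contra hcon
  push Not at hcon
  have h1 : ∑ j ∈ Finset.range J, c ≤ ∑ j ∈ Finset.range J, ∑ t ∈ S j, f t :=
    Finset.sum_le_sum fun j hj => (hcon j (Finset.mem_range.mp hj)).le
  have h2 : ∑ j ∈ Finset.range J, ∑ t ∈ S j, f t =
      ∑ t ∈ (Finset.range J).biUnion S, f t := by
    rw [Finset.sum_biUnion]
    intro j hj k hk hjk
    exact hS j (Finset.mem_range.mp hj) k (Finset.mem_range.mp hk) hjk
  have h3 : ∑ t ∈ (Finset.range J).biUnion S, f t ≤ ∑ t, f t :=
    Finset.sum_le_sum_of_subset_of_nonneg (Finset.subset_univ _) fun t _ _ => hf t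
  rw [Finset.sum_const, Finset.card_range, nsmul_eq_mul, h2] at h1
  linarith

/-- Sums along injective maps. -/
theorem u7_sum_inj {X T : Type} (e : X → T) (he : Function.Injective e) (A : Finset X)
    (B : Finset T) (hAB : ∀ x ∈ A, e x ∈ B) (f : T → ℝ) (hf : ∀ t, 0 ≤ f t) :
    ∑ x ∈ A, f (e x) ≤ ∑ t ∈ B, f t := by
  classical
  rw [← Finset.sum_image (f := f) (g := e) (s := A) (fun x _ y _ h => he h)]
  refine Finset.sum_le_sum_of_subset_of_nonneg ?_ fun t _ _ => hf t
  intro t ht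
  obtain ⟨x, hx, rfl⟩ := Finset.mem_image.mp ht
  exact hAB x hx

theorem relative_free (d : ℕ) (hd : 1 ≤ d) (γ : ℝ) (hγ : 0 < γ) (hγ1 : γ < 1) :
    ∃ ε : ℝ, 0 < ε ∧ ∀ (κ ι : Type) [Fintype κ] [Fintype ι] (b : κ → ℝ) (r : ι → ℝ) (R : ℝ),
      0 < R → (∀ i, 0 < b i) → (∀ i, 0 < r i ∧ r i ≤ ε * R) →
      OPackIn d b (tri (d + 1) ((1 - γ) * R)) →
      ∑ i, b i ^ (d + 1) + ∑ i, r i ^ (d + 1) < R ^ (d + 1) →
      Packs (openBall (d + 1) R) (Sum.elim b r) := by
  classical
  obtain ⟨c0, ηs, hc0, hηs, hlev⟩ := level_step d hd γ hγ hγ1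
  choose! θ hθ using hlev
  let E : ℕ → ℝ := fun j => Nat.rec ηs (fun _ x => θ x) j
  have hE0 : E 0 = ηs := rfl
  have hEs : ∀ j, E (j + 1) = θ (E j) := fun j => rfl
  have hE : ∀ j, 0 < E j ∧ E j ≤ ηs := by
    intro j
    induction j with
    | zero => exact ⟨hηs, le_rfl⟩
    | succ j ih =>
      rw [hEs]
      obtain ⟨h1, h2, _⟩ := hθ (E j) ih.1 ih.2
      exact ⟨h1, h2.trans ih.2⟩
  have hanti : Antitone E := antitone_nat_of_succ_le fun j => by
    rw [hEs]
    exact (hθ (E j) (hE j).1 (hE j).2).2.1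
  obtain ⟨J, hJ⟩ := exists_nat_ge (1 / c0)
  refine ⟨E J, (hE J).1, ?_⟩
  intro κ ι _ _ b r R hR hb hr hpack hvol
  set a : κ ⊕ ι → ℝ := Sum.elim b r with ha
  have ha0 : ∀ t, 0 < a t := by
    rintro (i | i)
    · exact hb i
    · exact (hr i).1
  have hRn : 0 < R ^ (d + 1) := by positivity
  have hvolT : ∑ t, a t ^ (d + 1) < R ^ (d + 1) := by
    rw [Fintype.sum_sum_type]
    exact hvol
  have hJc : R ^ (d + 1) ≤ J * (c0 * R ^ (d + 1)) := by
    have h1 : 1 ≤ J * c0 := by
      rw [div_le_iff₀ hc0] at hJ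
      exact hJ
    calc R ^ (d + 1) = 1 * R ^ (d + 1) := (one_mul _).symm
      _ ≤ (J * c0) * R ^ (d + 1) := mul_le_mul_of_nonneg_right h1 hRn.le
      _ = _ := mul_assoc _ _ _
  obtain ⟨j, hj, hSj⟩ := u7_pigeon (fun t => a t ^ (d + 1)) (fun t => pow_nonneg (ha0 t).le _)
    (fun j => Finset.univ.filter fun t => E (j + 1) * R < a t ∧ a t ≤ E j * R) J (by
      have key : ∀ j k, j < k → Disjoint
          (Finset.univ.filter fun t => E (j + 1) * R < a t ∧ a t ≤ E j * R)
          (Finset.univ.filter fun t => E (k + 1) * R < a t ∧ a t ≤ E k * R) := by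
        intro j k hjk
        rw [Finset.disjoint_left]
        intro t h1 h2
        simp only [Finset.mem_filter, Finset.mem_univ, true_and] at h1 h2
        have h3 : E k * R ≤ E (j + 1) * R := mul_le_mul_of_nonneg_right (hanti hjk) hR.le
        linarith [h1.1, h2.2]
      intro j _ k _ hjk
      rcases lt_or_gt_of_ne hjk with h | h
      · exact key j k h
      · exact (key k j h).symm) hvolT hJc
  -- the two new index types
  have hrJ : ∀ i, r i ≤ E j * R := fun i =>
    (hr i).2.trans (mul_le_mul_of_nonneg_right (hanti hj.le) hR.le)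
  let κ' := {i : κ // E j * R < b i}
  let ι' := {t : κ ⊕ ι // a t ≤ E j * R}
  let e : κ' ⊕ ι' → κ ⊕ ι := Sum.elim (fun i => Sum.inl i.1) (fun t => t.1)
  have hej : Function.Injective e := by
    rintro (x | x) (y | y) hxy
    · have h1 : x.1 = y.1 := Sum.inl_injective hxy
      exact congrArg Sum.inl (Subtype.ext h1)
    · exfalso
      have h1 : Sum.inl x.1 = y.1 := hxy
      have h2 := y.2
      rw [← h1] at h2
      exact absurd x.2 (not_lt.mpr h2)
    · exfalso
      have h1 : x.1 = Sum.inl y.1 := hxy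
      have h2 := x.2
      rw [h1] at h2
      exact absurd y.2 (not_lt.mpr h2)
    · have h1 : x.1 = y.1 := hxy
      exact congrArg Sum.inr (Subtype.ext h1)
  have hea : ∀ x, a (e x) = Sum.elim (fun i : κ' => b i.1) (fun t : ι' => a t.1) x := by
    rintro (x | x) <;> rfl
  have hpk : Packs (openBall (d + 1) R)
      (Sum.elim (fun i : κ' => b i.1) (fun t : ι' => a t.1)) := by
    refine (hθ (E j) (hE j).1 (hE j).2).2.2 κ' ι' (fun i => b i.1) (fun t => a t.1) R hR
      (fun i => i.2) (fun t => ⟨ha0 t.1, t.2⟩) (hpack.comp Subtype.val_injective) ?_ ?_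
    · refine le_trans ?_ hSj
      refine u7_sum_inj (fun t : ι' => t.1) Subtype.val_injective _ _ ?_
        (fun t => a t ^ (d + 1)) (fun t => pow_nonneg (ha0 t).le _)
      intro t ht
      simp only [Finset.mem_filter, Finset.mem_univ, true_and] at ht ⊢
      exact ⟨ht, t.2⟩
    · refine lt_of_le_of_lt ?_ hvolT
      have h1 : ∑ i : κ', b i.1 ^ (d + 1) + ∑ t : ι', a t.1 ^ (d + 1) =
          ∑ x : κ' ⊕ ι', a (e x) ^ (d + 1) := by
        rw [Fintype.sum_sum_type]
        rfl
      rw [h1]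
      exact u7_sum_inj e hej _ _ (fun x _ => Finset.mem_univ _)
        (fun t => a t ^ (d + 1)) (fun t => pow_nonneg (ha0 t).le _)
  -- the injection back
  let g : κ ⊕ ι → κ' ⊕ ι' := fun t =>
    if h : a t ≤ E j * R then Sum.inr ⟨t, h⟩ else
      match t, h with
      | Sum.inl i, h => Sum.inl ⟨i, not_le.mp h⟩
      | Sum.inr i, h => (h (hrJ i)).elim
  have hge : ∀ t, e (g t) = t := by
    intro t
    by_cases h : a t ≤ E j * R
    · have h1 : g t = Sum.inr ⟨t, h⟩ := dif_pos h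
      rw [h1]
      rfl
    · rcases t with i | i
      · have h1 : g (Sum.inl i) = Sum.inl ⟨i, not_le.mp h⟩ := dif_neg h
        rw [h1]
        rfl
      · exact (h (hrJ i)).elim
  have hg : Function.Injective g := fun x y hxy => by
    rw [← hge x, ← hge y, hxy]
  have hfin := Packs.comp_inj hpk g hg
  have h1 : (fun t => Sum.elim (fun i : κ' => b i.1) (fun t : ι' => a t.1) (g t)) = a := by
    funext t
    rw [← hea, hge]
  rw [h1] at hfin
  exact hfin

end Vale.Agent.P209.MM
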