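import Vale.Agent.P209.MM.U7
import Vale.Agent.P209.MM.Q8

namespace Vale.Agent.P209.MM

open Vale.Agent.P209 Vale.Agent.P209.Strong

/-! U8. Relative packing stability with the numerical criterion; `ε` only depends on `n`, `γ`. -/

/-- An empty family is packed. -/
theorem u8_empty {n : ℕ} {ι : Type} [IsEmpty ι] {S : Set (Fin n → ℂ)} (r : ι → ℝ) :
    Packs S r :=
  ⟨fun i => isEmptyElim i, fun i => isEmptyElim i, fun i => isEmptyElim i,
    fun i => isEmptyElim i⟩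

theorem u8_le_LL (n m j : ℕ) (r : ℕ → ℝ) (hr0 : ∀ i, 0 ≤ r i) : r 0 ≤ LL n m j r := by
  have h1 : r 0 ≤ max (r 0) (j * r 1) := le_max_left _ _
  have h2 : 0 ≤ ∑ q ∈ Finset.Ico j m, r (q ^ n - j ^ n + 1) :=
    Finset.sum_nonneg fun i _ => hr0 _
  unfold LL
  linarith

theorem relative_mm_free (n : ℕ) (hn : 2 ≤ n) (γ : ℝ) (hγ : 0 < γ) :
    ∃ ε : ℝ, 0 < ε ∧ ∀ (m j M k : ℕ) (R : ℝ) (r : ℕ → ℝ), j ≤ m → Antitone r →
      (∀ i, 0 ≤ r i) → (∀ i, i < k → 0 < r i) → 0 < R → LL n m j r ≤ (1 - γ) * R →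
      (m ^ n - j ^ n + 1 < M → LL n m j r ^ n +
        ∑ i ∈ Finset.Ico (m ^ n - j ^ n + 2) M, r i ^ n ≤
          ((1 - γ) * R - r (m ^ n - j ^ n + 1)) ^ n) →
      r M ≤ ε * R → ∑ i ∈ Finset.range k, r i ^ n < R ^ n →
      Packs (openBall n R) (fun i : Fin k => r i) := by
  classical
  obtain ⟨d, rfl⟩ : ∃ d, n = d + 1 := ⟨n - 1, by omega⟩
  rcases le_or_gt 1 γ with hγ1 | hγ1
  · refine ⟨1, one_pos, ?_⟩
    intro m j M k R r hj hanti hr0 hrpos hR hLL _ _ _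
    rcases Nat.eq_zero_or_pos k with rfl | hk
    · exact u8_empty _
    · exfalso
      have h1 := u8_le_LL (d + 1) m j r hr0
      have h2 := hrpos 0 hk
      have h3 : (1 - γ) * R ≤ 0 := mul_nonpos_of_nonpos_of_nonneg (by linarith) hR.le
      linarith
  obtain ⟨ε, hε, hrel⟩ := relative_free d (by omega) (γ / 2) (by linarith) (by linarith)
  refine ⟨ε, hε, ?_⟩
  intro m j M k R r hj hanti hr0 hrpos hR hLL hvol hsmall hsum
  have hγR : 0 < γ * R := mul_pos hγ hR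
  have hL : LL (d + 1) m j r < (1 - γ / 2) * R := by
    refine lt_of_le_of_lt hLL ?_
    nlinarith
  have hop : OPackIn d (fun i : Fin M => r i) (tri (d + 1) ((1 - γ / 2) * R)) := by
    refine mm_opack d m j M hj ((1 - γ / 2) * R) r hanti hr0 hL ?_
    intro hK
    refine lt_of_le_of_lt (hvol hK) ?_
    have h1 : r (m ^ (d + 1) - j ^ (d + 1) + 1) ≤ r 0 := hanti (Nat.zero_le _)
    have h2 := u8_le_LL (d + 1) m j r hr0
    exact pow_lt_pow_left₀ (by nlinarith) (by linarith) (by omega)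
  let κ : Type := {i : Fin k // (i : ℕ) < M}
  let b : κ → ℝ := fun p => r (p.1 : ℕ)
  have hb0 : ∀ p, 0 < b p := fun p => hrpos _ p.1.2
  have hopb : OPackIn d b (tri (d + 1) ((1 - γ / 2) * R)) := by
    have hf : Function.Injective (fun p : κ => (⟨(p.1 : ℕ), p.2⟩ : Fin M)) := by
      intro p p' h
      exact Subtype.ext (Fin.ext (Fin.mk.inj_iff.1 h))
    exact hop.comp hf
  have hfin := hrel κ {i : Fin k // ¬ (i : ℕ) < M} b (fun i => r (i.1 : ℕ)) R hR hb0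
    (fun i => ⟨hrpos _ i.1.2, (hanti (by have := i.2; omega)).trans hsmall⟩) hopb
    (by
      have e0 : ∑ i ∈ Finset.range k, r i ^ (d + 1) = ∑ i : Fin k, r (i : ℕ) ^ (d + 1) :=
        (Fin.sum_univ_eq_sum_range (fun i => r i ^ (d + 1)) k).symm
      have e1 : ∑ i : Fin k, r (i : ℕ) ^ (d + 1) = (∑ p : κ, b p ^ (d + 1)) +
          ∑ i : {i : Fin k // ¬ (i : ℕ) < M}, r (i.1 : ℕ) ^ (d + 1) :=
        (Fintype.sum_subtype_add_sum_subtype (fun i : Fin k => (i : ℕ) < M)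
          (fun i => r (i : ℕ) ^ (d + 1))).symm
      rw [← e1, ← e0]
      exact hsum)
  let g : Fin k → κ ⊕ {i : Fin k // ¬ (i : ℕ) < M} := fun i =>
    if h : (i : ℕ) < M then Sum.inl ⟨i, h⟩ else Sum.inr ⟨i, h⟩
  have hgl : ∀ (i : Fin k) (h : (i : ℕ) < M), g i = Sum.inl ⟨i, h⟩ := fun i h => dif_pos h
  have hgr : ∀ (i : Fin k) (h : ¬ (i : ℕ) < M), g i = Sum.inr ⟨i, h⟩ := fun i h => dif_neg h
  have hg : Function.Injective g := by
    intro i i' h
    by_cases hi : (i : ℕ) < M <;> by_cases hi' : (i' : ℕ) < M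
    · rw [hgl i hi, hgl i' hi'] at h
      exact Subtype.ext_iff.1 (Sum.inl_injective h)
    · rw [hgl i hi, hgr i' hi'] at h
      exact (Sum.inl_ne_inr h).elim
    · rw [hgr i hi, hgl i' hi'] at h
      exact (Sum.inr_ne_inl h).elim
    · rw [hgr i hi, hgr i' hi'] at h
      exact Subtype.ext_iff.1 (Sum.inr_injective h)
  have hfin2 := Packs.comp_inj hfin g hg
  have e4 : (fun i : Fin k => Sum.elim b
      (fun i : {i : Fin k // ¬ (i : ℕ) < M} => r (i.1 : ℕ)) (g i)) =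
      fun i : Fin k => r i := by
    funext i
    by_cases hi : (i : ℕ) < M
    · rw [hgl i hi]
      rfl
    · rw [hgr i hi]
      rfl
  rw [e4] at hfin2
  exact hfin2

end Vale.Agent.P209.MM
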