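import Vale.Agent.P209.MM.U7
import Vale.Agent.P209.MM.Q8

namespace Vale.Agent.P209.MM

open Vale.Agent.P209 Vale.Agent.P209.Strong

/-! U9. Volume criterion for the big balls. -/

theorem u9_LL (n : ℕ) (s : ℕ → ℝ) (hs : Antitone s) : LL n 1 1 s = s 0 := by
  unfold LL
  simp only [Finset.Ico_self, Finset.sum_empty, add_zero, Nat.cast_one, one_mul]
  exact max_eq_left (hs (Nat.zero_le 1))

theorem u9_list (d k : ℕ) (R : ℝ) (hR : 0 < R) (s : ℕ → ℝ) (hs : Antitone s)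
    (hs0 : ∀ i, 0 ≤ s i)
    (hvol : 2 ^ d * ∑ i ∈ Finset.range k, s i ^ (d + 1) < R ^ (d + 1)) (hk : s k = 0) :
    OPackIn d (fun i : Fin k => s i) (tri (d + 1) R) := by
  have hnn : ∀ i, 0 ≤ s i ^ (d + 1) := fun i => pow_nonneg (hs0 i) _
  have hsum : ∑ i ∈ Finset.range k, s i ^ (d + 1) < R ^ (d + 1) := by
    refine lt_of_le_of_lt ?_ hvol
    have h1 : (0 : ℝ) ≤ ∑ i ∈ Finset.range k, s i ^ (d + 1) := Finset.sum_nonneg fun i _ => hnn i
    have h2 : (1 : ℝ) ≤ 2 ^ d := one_le_pow₀ (by norm_num)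
    nlinarith
  have hlt : s 0 < R := by
    by_cases h : 0 < k
    · have h1 : s 0 ^ (d + 1) ≤ ∑ i ∈ Finset.range k, s i ^ (d + 1) :=
        Finset.single_le_sum (f := fun i => s i ^ (d + 1)) (fun i _ => hnn i)
          (Finset.mem_range.2 h)
      exact lt_of_pow_lt_pow_left₀ (d + 1) hR.le (lt_of_le_of_lt h1 hsum)
    · have h1 : k = 0 := by omega
      rw [h1] at hk
      rw [hk]
      exact hR
  refine mm_opack d 1 1 k le_rfl R s hs hs0 (by rw [u9_LL _ _ hs]; exact hlt) ?_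
  intro h1k
  rw [u9_LL _ _ hs]
  simp only [one_pow, Nat.sub_self, Nat.zero_add] at h1k ⊢
  have h10 : s 1 ≤ s 0 := hs (Nat.zero_le 1)
  have hsplit : ∑ i ∈ Finset.range k, s i ^ (d + 1) =
      s 0 ^ (d + 1) + s 1 ^ (d + 1) + ∑ i ∈ Finset.Ico 2 k, s i ^ (d + 1) := by
    rw [Finset.range_eq_Ico, ← Finset.sum_Ico_consecutive _ (Nat.zero_le 2) (by omega : 2 ≤ k)]
    congr 1
    rw [← Finset.range_eq_Ico, Finset.sum_range_succ, Finset.sum_range_one]
  have hpow : R ^ (d + 1) ≤ 2 ^ d * (s 1 ^ (d + 1) + (R - s 1) ^ (d + 1)) := by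
    have h2 := add_pow_le (hs0 1) (by linarith : 0 ≤ R - s 1) (d + 1)
    have h3 : s 1 + (R - s 1) = R := by ring
    rw [h3, Nat.add_sub_cancel] at h2
    exact h2
  have h4 : 2 ^ d * ∑ i ∈ Finset.range k, s i ^ (d + 1) <
      2 ^ d * (s 1 ^ (d + 1) + (R - s 1) ^ (d + 1)) := lt_of_lt_of_le hvol hpow
  have h5 := lt_of_mul_lt_mul_left h4 (by positivity)
  rw [hsplit] at h5
  linarith

theorem opack_volume (d : ℕ) (κ : Type) [Fintype κ] (b : κ → ℝ) (R : ℝ) (hR : 0 < R)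
    (hb : ∀ i, 0 < b i) (hvol : 2 ^ d * ∑ i, b i ^ (d + 1) < R ^ (d + 1)) :
    OPackIn d b (tri (d + 1) R) := by
  classical
  set k := Fintype.card κ with hk
  let e : Fin k ≃ κ := (Fintype.equivFin κ).symm
  let σ : Equiv.Perm (Fin k) := Tuple.sort fun i => - b (e i)
  have hmono : Monotone fun i => - b (e (σ i)) := Tuple.monotone_sort fun i => - b (e i)
  let s : ℕ → ℝ := fun i => if h : i < k then b (e (σ ⟨i, h⟩)) else 0
  have hsf : ∀ i : Fin k, s i = b (e (σ i)) := fun i => dif_pos i.2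
  have hs0 : ∀ i, 0 ≤ s i := by
    intro i
    by_cases h : i < k
    · rw [show s i = b (e (σ ⟨i, h⟩)) from dif_pos h]
      exact (hb _).le
    · rw [show s i = 0 from dif_neg h]
  have hs : Antitone s := by
    intro i j hij
    by_cases h : j < k
    · rw [show s j = b (e (σ ⟨j, h⟩)) from dif_pos h,
        show s i = b (e (σ ⟨i, lt_of_le_of_lt hij h⟩)) from dif_pos _]
      have h1 := hmono (show (⟨i, lt_of_le_of_lt hij h⟩ : Fin k) ≤ ⟨j, h⟩ from hij)
      exact neg_le_neg_iff.1 h1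
    · rw [show s j = 0 from dif_neg h]
      exact hs0 i
  have hsk : s k = 0 := dif_neg (lt_irrefl k)
  have hsum : ∑ i ∈ Finset.range k, s i ^ (d + 1) = ∑ i, b i ^ (d + 1) := by
    rw [Finset.sum_range]
    rw [← Equiv.sum_comp e fun x => b x ^ (d + 1), ← Equiv.sum_comp σ fun x => b (e x) ^ (d + 1)]
    exact Finset.sum_congr rfl fun i _ => by rw [hsf i]
  have h1 := u9_list d k R hR s hs hs0 (by rw [hsum]; exact hvol) hsk
  have h2 := h1.comp (f := fun x : κ => σ.symm (e.symm x))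
    (fun x y hxy => e.symm.injective (σ.symm.injective hxy))
  have h3 : (fun x : κ => s (σ.symm (e.symm x) : Fin k)) = b := by
    funext x
    rw [hsf]
    simp
  rw [h3] at h2
  exact h2

/-- The volume condition suffices if the balls larger than `ε * R` fill less than `2 ^ (1 - n)`
of the volume. -/
theorem relative_volume (n : ℕ) (hn : 2 ≤ n) (γ : ℝ) (hγ : 0 < γ) :
    ∃ ε : ℝ, 0 < ε ∧ ∀ (k : ℕ) (R : ℝ) (r : Fin k → ℝ), 0 < R → (∀ i, 0 < r i) →
      2 ^ (n - 1) * ∑ i with ε * R < r i, r i ^ n ≤ (1 - γ) * R ^ n →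
      ∑ i, r i ^ n < R ^ n → Packs (openBall n R) r := by
  classical
  obtain ⟨d, rfl⟩ : ∃ d, n = d + 1 := ⟨n - 1, by omega⟩
  have hd : 1 ≤ d := by omega
  have hd0 : (0 : ℝ) < ((d + 1 : ℕ) : ℝ) := by positivity
  have hd1 : (1 : ℝ) ≤ ((d + 1 : ℕ) : ℝ) := by
    rw [Nat.cast_add, Nat.cast_one]
    have : (0 : ℝ) ≤ d := Nat.cast_nonneg d
    linarith
  set γ' : ℝ := min γ (1 / 2) with hγ'
  have hγ'0 : 0 < γ' := lt_min hγ (by norm_num)
  have hγ'1 : γ' ≤ 1 / 2 := min_le_right _ _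
  have hγ'2 : γ' ≤ γ := min_le_left _ _
  set gs : ℝ := γ' / (2 * ((d + 1 : ℕ) : ℝ)) with hgs
  have hgs0 : 0 < gs := by positivity
  have hgsn : ((d + 1 : ℕ) : ℝ) * gs = γ' / 2 := by
    rw [hgs]
    field_simp
  have hgs1 : gs < 1 := by
    have : gs ≤ ((d + 1 : ℕ) : ℝ) * gs := le_mul_of_one_le_left hgs0.le hd1
    linarith
  have hpow : 1 - γ' < (1 - gs) ^ (d + 1) := by
    have h1 := one_add_mul_le_pow (by linarith : (-2 : ℝ) ≤ -gs) (d + 1)
    have h2 : 1 + ((d + 1 : ℕ) : ℝ) * -gs = 1 - γ' / 2 := by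
      rw [mul_neg, hgsn]; ring
    rw [h2, ← sub_eq_add_neg] at h1
    linarith
  obtain ⟨ε, hε, h⟩ := relative_free d hd gs hgs0 hgs1
  refine ⟨ε, hε, fun k R r hR hr hbig hsum => ?_⟩
  have hRn : 0 < R ^ (d + 1) := by positivity
  have hsplit : ∑ i : {i // ε * R < r i}, r i ^ (d + 1) +
      ∑ i : {i // ¬ ε * R < r i}, r i ^ (d + 1) = ∑ i, r i ^ (d + 1) := by
    rw [← Equiv.sum_comp (Equiv.sumCompl fun i => ε * R < r i) fun i => r i ^ (d + 1),
      Fintype.sum_sum_type]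
    rfl
  have hb : ∑ i : {i // ε * R < r i}, r i ^ (d + 1) =
      ∑ i with ε * R < r i, r i ^ (d + 1) := by
    rw [Finset.sum_subtype (p := fun i => ε * R < r i) _ (by simp)]
  have hO : OPackIn d (fun i : {i // ε * R < r i} => r i) (tri (d + 1) ((1 - gs) * R)) := by
    refine opack_volume d _ _ _ (mul_pos (by linarith) hR) (fun i => hr _) ?_
    rw [hb, mul_pow]
    rw [Nat.add_sub_cancel] at hbig
    refine lt_of_le_of_lt hbig ?_
    exact mul_lt_mul_of_pos_right (by linarith) hRn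
  have hP := h {i // ε * R < r i} {i // ¬ ε * R < r i} (fun i => r i) (fun i => r i) R hR
    (fun i => hr _) (fun i => ⟨hr _, not_lt.1 i.2⟩) hO (by rw [hsplit]; exact hsum)
  have h2 := Vale.Agent.P209.Strong.Packs.comp_inj hP (Equiv.sumCompl fun i => ε * R < r i).symm
    (Equiv.sumCompl fun i => ε * R < r i).symm.injective
  have h3 : (fun i : Fin k => Sum.elim (fun i : {i // ε * R < r i} => r i)
      (fun i : {i // ¬ ε * R < r i} => r i) ((Equiv.sumCompl fun i => ε * R < r i).symm i)) = r := by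
    have h4 : ∀ x, Sum.elim (fun i : {i // ε * R < r i} => r i)
        (fun i : {i // ¬ ε * R < r i} => r i) x =
          r ((Equiv.sumCompl fun i => ε * R < r i) x) := by
      rintro (x | x) <;> rfl
    funext i
    rw [h4, Equiv.apply_symm_apply]
  rw [h3] at h2
  exact h2

end Vale.Agent.P209.MM
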